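import Vale.Agent.Lib.P322.Pot.Hi.Star

/-!
P322, potential method, range `4/5 ≤ ρ ≤ 7/8`.  Numerical facts about `Lam ρ`.
-/

namespace Vale.Agent.Lib.P322.Pot

open Real Finset Vale.Agent.Lib.P322

/-- `0.62860 ≤ log (15/8) ≤ 0.62862` -/
lemma log_fifteen_eighths :
    62860 / 100000 ≤ Real.log (15 / 8) ∧ Real.log (15 / 8) ≤ 62862 / 100000 := by
  have h := Real.abs_log_sub_add_sum_range_le (x := 1 / 16) (by norm_num [abs_of_pos]) 4
  have e : Real.log (15 / 8) = Real.log 2 + Real.log (1 - 1 / 16) := by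
    rw [← Real.log_mul (by norm_num) (by norm_num)]
    norm_num
  have habs : |(1 / 16 : ℝ)| = 1 / 16 := abs_of_pos (by norm_num)
  rw [habs] at h
  simp only [Finset.sum_range_succ, Finset.sum_range_zero] at h
  have h' := abs_le.1 h
  have hl := Real.log_two_lt_d9
  have hg := Real.log_two_gt_d9
  obtain ⟨a, b⟩ := h'
  norm_num at a b
  rw [e]
  constructor <;> linarith

lemma Lam_seven_eighths :
    Lam (7 / 8) = 15 / 16 * Real.log (15 / 8) - 3 / 16 * Real.log 2 := by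
  unfold Lam phi
  have e1 : (1 : ℝ) + 7 / 8 = 15 / 8 := by norm_num
  have e2 : (1 : ℝ) - 7 / 8 = 1 / 8 := by norm_num
  have e3 : Real.log (1 / 8) = -(3 * Real.log 2) := by
    rw [one_div, Real.log_inv, show (8 : ℝ) = 2 ^ 3 by norm_num, Real.log_pow]
    norm_num
  rw [e1, e2, e3]
  ring

/-- slope bound for `Lam` on `[4/5, 7/8]` -/
lemma Lam_slope_top {ρ : ℝ} (h0 : 4 / 5 ≤ ρ) (h1 : ρ ≤ 7 / 8) :
    Lam (7 / 8) - Lam ρ ≤ 136 / 100 * (7 / 8 - ρ) := by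
  have hb := log_fifteen_eighths
  have hl := Real.log_two_lt_d9
  refine Convex.image_sub_le_mul_sub_of_deriv_le (convex_Icc (4 / 5 : ℝ) (7 / 8))
    continuous_Lam.continuousOn ?_ ?_ ρ ⟨h0, h1⟩ (7 / 8) ⟨by norm_num, le_refl _⟩ h1
  · intro x hx
    rw [interior_Icc] at hx
    exact (hasDerivAt_Lam (by linarith [hx.1]) (by linarith [hx.2])).differentiableAt.differentiableWithinAt
  · intro x hx
    rw [interior_Icc] at hx
    rw [(hasDerivAt_Lam (by linarith [hx.1]) (by linarith [hx.2])).deriv]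
    unfold Lam1
    have a1 : Real.log (1 + x) ≤ Real.log (15 / 8) :=
      Real.log_le_log (by linarith [hx.1]) (by linarith [hx.2])
    have a2 : Real.log (1 / 8) ≤ Real.log (1 - x) :=
      Real.log_le_log (by norm_num) (by linarith [hx.2])
    have e3 : Real.log (1 / 8) = -(3 * Real.log 2) := by
      rw [one_div, Real.log_inv, show (8 : ℝ) = 2 ^ 3 by norm_num, Real.log_pow]
      norm_num
    rw [e3] at a2
    linarith [hb.2]

/-- Numerically `h = log 2 - Lam ρ` decreases from `0.32508` (`ρ = 4/5`) to `0.23379` (`ρ = 7/8`).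
`h - (1 - ρ^2)` is increasing in `ρ` (derivative `2ρ - Lam1 ρ > 0` here) and equals `-0.00058` at `ρ = 7/8`, where
`h = (19/16) log 2 - (15/16) log (15/8)`. -/
lemma consts_top {ρ : ℝ} (h0 : 4 / 5 ≤ ρ) (h1 : ρ ≤ 7 / 8) :
    233 / 1000 ≤ Real.log 2 - Lam ρ ∧ Real.log 2 - Lam ρ ≤ 326 / 1000 ∧
      Real.log 2 - Lam ρ ≤ 1 - ρ ^ 2 ∧ 1 - ρ ^ 2 ≤ 2 * (Real.log 2 - Lam ρ) := by
  have hρ0 : 0 ≤ ρ := by linarith
  have hb := log_fifteen_eighths
  have hl := Real.log_two_lt_d9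
  have hg := Real.log_two_gt_d9
  have h78 := Lam_seven_eighths
  have hsl := Lam_slope_top h0 h1
  have hm1 : Lam ρ ≤ Lam (7 / 8) := Lam_mono hρ0 h1 (by norm_num)
  have hm0 : Lam (4 / 5) ≤ Lam ρ := Lam_mono (by norm_num) h0 (by linarith)
  have hlo := Lam_poly8_le (t := 4 / 5) (by norm_num) (by norm_num)
  have hsq := Lam_le_log_two_mul_sq (t := ρ) (by linarith) (by linarith)
  refine ⟨?_, ?_, ?_, ?_⟩
  · linarith [hb.2]
  · norm_num at hlo
    linarith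
  · have : (7 / 8 - ρ) * (7 / 8 + ρ) = 49 / 64 - ρ ^ 2 := by ring
    nlinarith [hb.1]
  · have hz1 : ρ ^ 2 ≤ 1 := by nlinarith
    nlinarith

/-- Equivalent to `g ρ = (688/1000) Lam ρ - ρ^2/2 + (312/1000) log 2 - 146/1000 ≥ 0`; `g` is convex on the range, its minimum is
`≈ 0.0026` near `ρ = 0.84`. -/
lemma zeta_top {ρ : ℝ} (h0 : 4 / 5 ≤ ρ) (h1 : ρ ≤ 7 / 8) :
    146 / 1000 - 312 / 1000 * (Real.log 2 - Lam ρ) ≤ Lam ρ - ρ ^ 2 / 2 := by
  have hρ0 : 0 ≤ ρ := by linarith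
  have hlo := Lam_poly8_le (t := ρ) (by linarith) (by linarith)
  have hz1 : ρ ^ 2 ≤ 49 / 64 := by
    have := pow_le_pow_left₀ hρ0 h1 2
    norm_num at this
    exact this
  have hz0 : 16 / 25 ≤ ρ ^ 2 := by
    have := pow_le_pow_left₀ (by norm_num : (0:ℝ) ≤ 4 / 5) h0 2
    norm_num at this
    exact this
  set z := ρ ^ 2 with hz
  have hzn : 0 ≤ z := by linarith
  have hg := Real.log_two_gt_d9
  have c0 : (0:ℝ) ≤ 7 / 10 := by norm_num
  have t2 := pow_tangent_hi c0 hzn 1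
  have t3 := pow_tangent_hi c0 hzn 2
  have t4 := pow_tangent_hi c0 hzn 3
  have t5 := pow_tangent_hi c0 hzn 4
  have t6 := pow_tangent_hi c0 hzn 5
  have t7 := pow_tangent_hi c0 hzn 6
  have t8 := pow_tangent_hi c0 hzn 7
  norm_num at t2 t3 t4 t5 t6 t7 t8
  linarith

/-- Numerically `ρ^2 h / ((1-ρ^2) Lam ρ)` increases from `1.5702` to `1.6626` on the range. -/
lemma Jc_top {ρ J : ℝ} (h0 : 4 / 5 ≤ ρ) (h1 : ρ ≤ 7 / 8) (hJ : 0 ≤ J)
    (hcut : (1 - ρ ^ 2) * Lam ρ * (1 + J) < ρ ^ 2 * (Real.log 2 - Lam ρ)) : J ≤ 17 / 25 := by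
  by_contra hcon
  push Not at hcon
  have hρ0 : 0 ≤ ρ := by linarith
  have hlo := Lam_poly8_le (t := ρ) (by linarith) (by linarith)
  have hz1 : ρ ^ 2 ≤ 49 / 64 := by
    have := pow_le_pow_left₀ hρ0 h1 2
    norm_num at this
    exact this
  have hz0 : 16 / 25 ≤ ρ ^ 2 := by
    have := pow_le_pow_left₀ (by norm_num : (0:ℝ) ≤ 4 / 5) h0 2
    norm_num at this
    exact this
  set z := ρ ^ 2 with hz
  have hzn : 0 ≤ z := by linarith
  have hl := Real.log_two_lt_d9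
  have c0 : (0:ℝ) ≤ 49 / 64 := by norm_num
  have t2 := pow_tangent_hi c0 hzn 1
  have t3 := pow_tangent_hi c0 hzn 2
  have t4 := pow_tangent_hi c0 hzn 3
  have t5 := pow_tangent_hi c0 hzn 4
  have t6 := pow_tangent_hi c0 hzn 5
  have t7 := pow_tangent_hi c0 hzn 6
  norm_num at t2 t3 t4 t5 t6 t7
  have hw : 59891 / 100000 - 21330 / 100000 * (49 / 64 - z) ≤
      1 / 2 + z / 12 + z ^ 2 / 30 + z ^ 3 / 56 + z ^ 4 / 90 + z ^ 5 / 132 + z ^ 6 / 182
        + z ^ 7 / 240 := by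
    linarith
  have hc : 0 ≤ 168 / 100 - 68 / 100 * z := by linarith
  have hP : Real.log 2 ≤ (168 / 100 - 68 / 100 * z) *
      (1 / 2 + z / 12 + z ^ 2 / 30 + z ^ 3 / 56 + z ^ 4 / 90 + z ^ 5 / 132 + z ^ 6 / 182
        + z ^ 7 / 240) := by
    have h3 := mul_le_mul_of_nonneg_left hw hc
    have h4 : 0 ≤ (z - 16 / 25) * (49 / 64 - z) := mul_nonneg (by linarith) (by linarith)
    nlinarith
  have hL : z * (1 / 2 + z / 12 + z ^ 2 / 30 + z ^ 3 / 56 + z ^ 4 / 90 + z ^ 5 / 132 + z ^ 6 / 182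
        + z ^ 7 / 240) ≤ Lam ρ := by
    calc _ = z / 2 + z ^ 2 / 12 + z ^ 3 / 30 + z ^ 4 / 56 + z ^ 5 / 90 + z ^ 6 / 132 + z ^ 7 / 182
          + z ^ 8 / 240 := by ring
      _ ≤ _ := hlo
  have h2 : z * Real.log 2 ≤ (168 / 100 - 68 / 100 * z) * Lam ρ := by
    calc z * Real.log 2
        ≤ z * ((168 / 100 - 68 / 100 * z) * (1 / 2 + z / 12 + z ^ 2 / 30 + z ^ 3 / 56
            + z ^ 4 / 90 + z ^ 5 / 132 + z ^ 6 / 182 + z ^ 7 / 240)) :=
          mul_le_mul_of_nonneg_left hP hzn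
      _ = (168 / 100 - 68 / 100 * z) * (z * (1 / 2 + z / 12 + z ^ 2 / 30 + z ^ 3 / 56
            + z ^ 4 / 90 + z ^ 5 / 132 + z ^ 6 / 182 + z ^ 7 / 240)) := by ring
      _ ≤ _ := mul_le_mul_of_nonneg_left hL hc
  have hLam : 0 ≤ Lam ρ := le_trans (by positivity) hL
  have h5 : 0 ≤ (1 - z) * Lam ρ * (J - 17 / 25) :=
    mul_nonneg (mul_nonneg (by linarith) hLam) (by linarith)
  nlinarith

end Vale.Agent.Lib.P322.Pot
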