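import Mathlib

/-!
P322, potential method, range `4/5 ≤ ρ ≤ 7/8`.  Auxiliary file for `PT_box0` (generated by a script): the five coefficients of the expansion of
`PTf` in the products `(d - d0)^j (d1 - d)^(4-j)`, each of them expanded in the products `(a-13/20)^i (1-a)^(4-i) J^k (17/25-J)^(2-k)`
with coefficients affine in `(L, h)` which are nonnegative on the box.
-/

namespace Vale.Agent.Lib.P322.Pot

noncomputable def PTb0C0 (L h a J : ℝ) : ℝ :=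
  ((0) + (8192) * L + (-8192) * h) * a ^ 0 * J ^ 2
    + ((0) + (-16384) * L + (16384) * h) * a ^ 1 * J ^ 1
    + ((149504 / 125) + (8192) * L + (-1343488 / 125) * h) * a ^ 2 * J ^ 0
    + ((-149504 / 125) + (0) * L + (319488 / 125) * h) * a ^ 4 * J ^ 0

lemma PTb0C0_nonneg {L h a J : ℝ} (hL0 : 6931471 / 10000000 ≤ L) (hL1 : L ≤ 6931472 / 10000000)
    (hh0 : 233 / 1000 ≤ h) (hh1 : h ≤ 326 / 1000) (ha0 : 13 / 20 ≤ a) (ha1 : a ≤ 1)
    (hJ0 : 0 ≤ J) (hJ1 : J ≤ 17 / 25) : 0 ≤ PTb0C0 L h a J := by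
  obtain ⟨xl, hxl⟩ : ∃ x : ℝ, x = L - 6931471 / 10000000 := ⟨_, rfl⟩
  obtain ⟨xu, hxu⟩ : ∃ x : ℝ, x = 6931472 / 10000000 - L := ⟨_, rfl⟩
  obtain ⟨yl, hyl⟩ : ∃ x : ℝ, x = h - 233 / 1000 := ⟨_, rfl⟩
  obtain ⟨yu, hyu⟩ : ∃ x : ℝ, x = 326 / 1000 - h := ⟨_, rfl⟩
  obtain ⟨u, hu⟩ : ∃ x : ℝ, x = a - 13 / 20 := ⟨_, rfl⟩
  obtain ⟨v, hv⟩ : ∃ x : ℝ, x = 1 - a := ⟨_, rfl⟩
  obtain ⟨w, hw⟩ : ∃ x : ℝ, x = 17 / 25 - J := ⟨_, rfl⟩
  have hxl0 : 0 ≤ xl := by rw [hxl]; linarith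
  have hxu0 : 0 ≤ xu := by rw [hxu]; linarith
  have hyl0 : 0 ≤ yl := by rw [hyl]; linarith
  have hyu0 : 0 ≤ yu := by rw [hyu]; linarith
  have hu0 : 0 ≤ u := by rw [hu]; linarith
  have hv0 : 0 ≤ v := by rw [hv]; linarith
  have hw0 : 0 ≤ w := by rw [hw]; linarith
  have key : PTb0C0 L h a J =
      ((3398157208576 / 17347225) + (346112000000 / 693889) * xl + (408474460160 / 693889) * yu) * u ^ 0 * v ^ 4 * J ^ 0 * w ^ 2
      + ((21337964544 / 2478175) + (31948800000 / 693889) * xu + (92776120320 / 693889) * yu) * u ^ 0 * v ^ 4 * J ^ 1 * w ^ 1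
      + ((1140370185216 / 86736125) + (737280000 / 693889) * xl + (63099740160 / 693889) * yu) * u ^ 0 * v ^ 4 * J ^ 2 * w ^ 0
      + ((3415563966464 / 3469445) + (1757184000000 / 693889) * xl + (2024659353600 / 693889) * yu) * u ^ 1 * v ^ 3 * J ^ 0 * w ^ 2
      + ((3988719161344 / 17347225) + (227737600000 / 693889) * xl + (762688307200 / 693889) * yu) * u ^ 1 * v ^ 3 * J ^ 1 * w ^ 1
      + ((584543535104 / 12390875) + (14254080000 / 693889) * xu + (253221273600 / 693889) * yu) * u ^ 1 * v ^ 3 * J ^ 2 * w ^ 0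
      + ((6319012289536 / 3469445) + (3295232000000 / 693889) * xl + (3675422720000 / 693889) * yu) * u ^ 2 * v ^ 2 * J ^ 0 * w ^ 2
      + ((12571052898304 / 17347225) + (1075609600000 / 693889) * xl + (1835991040000 / 693889) * yu) * u ^ 2 * v ^ 2 * J ^ 1 * w ^ 1
      + ((9185919671296 / 86736125) + (53166080000 / 693889) * xl + (433356800000 / 693889) * yu) * u ^ 2 * v ^ 2 * J ^ 2 * w ^ 0
      + ((1017927294976 / 693889) + (2703360000000 / 693889) * xl + (2882273280000 / 693889) * yu) * u ^ 3 * v ^ 1 * J ^ 0 * w ^ 2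
      + ((13571191922688 / 17347225) + (1340211200000 / 693889) * xl + (1698037760000 / 693889) * yu) * u ^ 3 * v ^ 1 * J ^ 1 * w ^ 1
      + ((10152356020224 / 86736125) + (152043520000 / 693889) * xl + (330956800000 / 693889) * yu) * u ^ 3 * v ^ 1 * J ^ 2 * w ^ 0
      + ((300766904320 / 693889) + (819200000000 / 693889) * xl + (819200000000 / 693889) * yu) * u ^ 4 * v ^ 0 * J ^ 0 * w ^ 2
      + ((962454093824 / 3469445) + (524288000000 / 693889) * xl + (524288000000 / 693889) * yu) * u ^ 4 * v ^ 0 * J ^ 1 * w ^ 1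
      + ((3849816375296 / 86736125) + (83886080000 / 693889) * xl + (83886080000 / 693889) * yu) * u ^ 4 * v ^ 0 * J ^ 2 * w ^ 0 := by
    simp only [hxl, hxu, hyl, hyu, hu, hv, hw]
    unfold PTb0C0
    ring
  rw [key]
  positivity

noncomputable def PTb0C1 (L h a J : ℝ) : ℝ :=
  ((0) + (32768) * L + (-32768) * h) * a ^ 0 * J ^ 2
    + ((0) + (-65536) * L + (65536) * h) * a ^ 1 * J ^ 1
    + ((0) + (-1024) * L + (1024) * h) * a ^ 1 * J ^ 2
    + ((598016 / 125) + (32768) * L + (-5373952 / 125) * h) * a ^ 2 * J ^ 0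
    + ((-598016 / 125) + (0) * L + (1277952 / 125) * h) * a ^ 4 * J ^ 0

lemma PTb0C1_nonneg {L h a J : ℝ} (hL0 : 6931471 / 10000000 ≤ L) (hL1 : L ≤ 6931472 / 10000000)
    (hh0 : 233 / 1000 ≤ h) (hh1 : h ≤ 326 / 1000) (ha0 : 13 / 20 ≤ a) (ha1 : a ≤ 1)
    (hJ0 : 0 ≤ J) (hJ1 : J ≤ 17 / 25) : 0 ≤ PTb0C1 L h a J := by
  obtain ⟨xl, hxl⟩ : ∃ x : ℝ, x = L - 6931471 / 10000000 := ⟨_, rfl⟩
  obtain ⟨xu, hxu⟩ : ∃ x : ℝ, x = 6931472 / 10000000 - L := ⟨_, rfl⟩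
  obtain ⟨yl, hyl⟩ : ∃ x : ℝ, x = h - 233 / 1000 := ⟨_, rfl⟩
  obtain ⟨yu, hyu⟩ : ∃ x : ℝ, x = 326 / 1000 - h := ⟨_, rfl⟩
  obtain ⟨u, hu⟩ : ∃ x : ℝ, x = a - 13 / 20 := ⟨_, rfl⟩
  obtain ⟨v, hv⟩ : ∃ x : ℝ, x = 1 - a := ⟨_, rfl⟩
  obtain ⟨w, hw⟩ : ∃ x : ℝ, x = 17 / 25 - J := ⟨_, rfl⟩
  have hxl0 : 0 ≤ xl := by rw [hxl]; linarith
  have hxu0 : 0 ≤ xu := by rw [hxu]; linarith
  have hyl0 : 0 ≤ yl := by rw [hyl]; linarith
  have hyu0 : 0 ≤ yu := by rw [hyu]; linarith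
  have hu0 : 0 ≤ u := by rw [hu]; linarith
  have hv0 : 0 ≤ v := by rw [hv]; linarith
  have hw0 : 0 ≤ w := by rw [hw]; linarith
  have key : PTb0C1 L h a J =
      ((13592628834304 / 17347225) + (1384448000000 / 693889) * xl + (1633897840640 / 693889) * yu) * u ^ 0 * v ^ 4 * J ^ 0 * w ^ 2
      + ((85351858176 / 2478175) + (127795200000 / 693889) * xu + (371104481280 / 693889) * yu) * u ^ 0 * v ^ 4 * J ^ 1 * w ^ 1
      + ((2249288441856 / 61954375) + (27828224000 / 693889) * xu + (221621616640 / 693889) * yu) * u ^ 0 * v ^ 4 * J ^ 2 * w ^ 0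
      + ((13662255865856 / 3469445) + (7028736000000 / 693889) * xl + (8098637414400 / 693889) * yu) * u ^ 1 * v ^ 3 * J ^ 0 * w ^ 2
      + ((15954876645376 / 17347225) + (910950400000 / 693889) * xl + (3050753228800 / 693889) * yu) * u ^ 1 * v ^ 3 * J ^ 1 * w ^ 1
      + ((7111961878528 / 61954375) + (196698112000 / 693889) * xu + (873203302400 / 693889) * yu) * u ^ 1 * v ^ 3 * J ^ 2 * w ^ 0
      + ((25276049158144 / 3469445) + (13180928000000 / 693889) * xl + (14701690880000 / 693889) * yu) * u ^ 2 * v ^ 2 * J ^ 0 * w ^ 2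
      + ((50284211593216 / 17347225) + (4302438400000 / 693889) * xl + (7343964160000 / 693889) * yu) * u ^ 2 * v ^ 2 * J ^ 1 * w ^ 1
      + ((18562232885248 / 61954375) + (21716992000 / 693889) * xu + (1499045888000 / 693889) * yu) * u ^ 2 * v ^ 2 * J ^ 2 * w ^ 0
      + ((4071709179904 / 693889) + (10813440000000 / 693889) * xl + (11529093120000 / 693889) * yu) * u ^ 3 * v ^ 1 * J ^ 0 * w ^ 2
      + ((54284767690752 / 17347225) + (5360844800000 / 693889) * xl + (6792151040000 / 693889) * yu) * u ^ 3 * v ^ 1 * J ^ 1 * w ^ 1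
      + ((163389124276736 / 433680625) + (435347456000 / 693889) * xl + (1151000576000 / 693889) * yu) * u ^ 3 * v ^ 1 * J ^ 2 * w ^ 0
      + ((1203067617280 / 693889) + (3276800000000 / 693889) * xl + (3276800000000 / 693889) * yu) * u ^ 4 * v ^ 0 * J ^ 0 * w ^ 2
      + ((3849816375296 / 3469445) + (2097152000000 / 693889) * xl + (2097152000000 / 693889) * yu) * u ^ 4 * v ^ 0 * J ^ 1 * w ^ 1
      + ((13226224617472 / 86736125) + (288194560000 / 693889) * xl + (288194560000 / 693889) * yu) * u ^ 4 * v ^ 0 * J ^ 2 * w ^ 0 := by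
    simp only [hxl, hxu, hyl, hyu, hu, hv, hw]
    unfold PTb0C1
    ring
  rw [key]
  positivity

noncomputable def PTb0C2 (L h a J : ℝ) : ℝ :=
  ((-12848 / 625) + (128) * L + (-12544 / 625) * h) * a ^ 0 * J ^ 0
    + ((0) + (128) * L + (-128) * h) * a ^ 0 * J ^ 1
    + ((0) + (49152) * L + (-49152) * h) * a ^ 0 * J ^ 2
    + ((0) + (0) * L + (64) * h) * a ^ 1 * J ^ 0
    + ((0) + (-98176) * L + (98176) * h) * a ^ 1 * J ^ 1
    + ((0) + (-3072) * L + (3072) * h) * a ^ 1 * J ^ 2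
    + ((4457968 / 625) + (48896) * L + (-40172096 / 625) * h) * a ^ 2 * J ^ 0
    + ((-897024 / 125) + (128) * L + (1900928 / 125) * h) * a ^ 4 * J ^ 0

lemma PTb0C2_nonneg {L h a J : ℝ} (hL0 : 6931471 / 10000000 ≤ L) (hL1 : L ≤ 6931472 / 10000000)
    (hh0 : 233 / 1000 ≤ h) (hh1 : h ≤ 326 / 1000) (ha0 : 13 / 20 ≤ a) (ha1 : a ≤ 1)
    (hJ0 : 0 ≤ J) (hJ1 : J ≤ 17 / 25) : 0 ≤ PTb0C2 L h a J := by
  obtain ⟨xl, hxl⟩ : ∃ x : ℝ, x = L - 6931471 / 10000000 := ⟨_, rfl⟩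
  obtain ⟨xu, hxu⟩ : ∃ x : ℝ, x = 6931472 / 10000000 - L := ⟨_, rfl⟩
  obtain ⟨yl, hyl⟩ : ∃ x : ℝ, x = h - 233 / 1000 := ⟨_, rfl⟩
  obtain ⟨yu, hyu⟩ : ∃ x : ℝ, x = 326 / 1000 - h := ⟨_, rfl⟩
  obtain ⟨u, hu⟩ : ∃ x : ℝ, x = a - 13 / 20 := ⟨_, rfl⟩
  obtain ⟨v, hv⟩ : ∃ x : ℝ, x = 1 - a := ⟨_, rfl⟩
  obtain ⟨w, hw⟩ : ∃ x : ℝ, x = 17 / 25 - J := ⟨_, rfl⟩
  have hxl0 : 0 ≤ xl := by rw [hxl]; linarith
  have hxu0 : 0 ≤ xu := by rw [hxu]; linarith
  have hyl0 : 0 ≤ yl := by rw [hyl]; linarith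
  have hyu0 : 0 ≤ yu := by rw [hyu]; linarith
  have hu0 : 0 ≤ u := by rw [hu]; linarith
  have hv0 : 0 ≤ v := by rw [hv]; linarith
  have hw0 : 0 ≤ w := by rw [hw]; linarith
  have key : PTb0C2 L h a J =
      ((102187935298111 / 86736125) + (2080940880000 / 693889) * xl + (2442018706560 / 693889) * yu) * u ^ 0 * v ^ 4 * J ^ 0 * w ^ 2
      + ((5626513396064 / 86736125) + (168793440000 / 693889) * xu + (553362213120 / 693889) * yu) * u ^ 0 * v ^ 4 * J ^ 1 * w ^ 1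
      + ((17535560184176 / 433680625) + (69277872000 / 693889) * xu + (291799954560 / 693889) * yu) * u ^ 0 * v ^ 4 * J ^ 2 * w ^ 0
      + ((102552300999152 / 17347225) + (10553452800000 / 693889) * xl + (12105675980800 / 693889) * yu) * u ^ 1 * v ^ 3 * J ^ 0 * w ^ 2
      + ((20129243168 / 14161) + (1447616000000 / 693889) * xl + (4552062361600 / 693889) * yu) * u ^ 1 * v ^ 3 * J ^ 1 * w ^ 1
      + ((42612709192448 / 433680625) + (433728256000 / 693889) * xu + (1118494924800 / 693889) * yu) * u ^ 1 * v ^ 3 * J ^ 2 * w ^ 0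
      + ((37904932272064 / 3469445) + (1163392000000 / 40817) * xl + (21980041241600 / 693889) * yu) * u ^ 2 * v ^ 2 * J ^ 0 * w ^ 2
      + ((10887101639488 / 2478175) + (385971200000 / 40817) * xl + (10966264883200 / 693889) * yu) * u ^ 2 * v ^ 2 * J ^ 1 * w ^ 1
      + ((134956822171648 / 433680625) + (16621568000 / 40817) * xu + (1919810585600 / 693889) * yu) * u ^ 2 * v ^ 2 * J ^ 2 * w ^ 0
      + ((6101968227328 / 693889) + (16220160000000 / 693889) * xl + (17241604608000 / 693889) * yu) * u ^ 3 * v ^ 1 * J ^ 0 * w ^ 2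
      + ((11679791736896 / 2478175) + (8107852800000 / 693889) * xl + (10150742016000 / 693889) * yu) * u ^ 3 * v ^ 1 * J ^ 1 * w ^ 1
      + ((197378671857088 / 433680625) + (460366848000 / 693889) * xl + (1481811456000 / 693889) * yu) * u ^ 3 * v ^ 1 * J ^ 2 * w ^ 0
      + ((1802374225920 / 693889) + (4915200000000 / 693889) * xl + (4902400000000 / 693889) * yu) * u ^ 4 * v ^ 0 * J ^ 0 * w ^ 2
      + ((826344149504 / 495635) + (3163136000000 / 693889) * xl + (3137536000000 / 693889) * yu) * u ^ 4 * v ^ 0 * J ^ 1 * w ^ 1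
      + ((3420057538048 / 17347225) + (378675200000 / 693889) * xl + (365875200000 / 693889) * yu) * u ^ 4 * v ^ 0 * J ^ 2 * w ^ 0 := by
    simp only [hxl, hxu, hyl, hyu, hu, hv, hw]
    unfold PTb0C2
    ring
  rw [key]
  positivity

noncomputable def PTb0C3 (L h a J : ℝ) : ℝ :=
  ((-25696 / 625) + (256) * L + (-25088 / 625) * h) * a ^ 0 * J ^ 0
    + ((0) + (256) * L + (-256) * h) * a ^ 0 * J ^ 1
    + ((0) + (32768) * L + (-32768) * h) * a ^ 0 * J ^ 2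
    + ((0) + (0) * L + (128) * h) * a ^ 1 * J ^ 0
    + ((0) + (-65280) * L + (65280) * h) * a ^ 1 * J ^ 1
    + ((0) + (-3072) * L + (3072) * h) * a ^ 1 * J ^ 2
    + ((2935776 / 625) + (32256) * L + (-26604672 / 625) * h) * a ^ 2 * J ^ 0
    + ((-598016 / 125) + (256) * L + (1245952 / 125) * h) * a ^ 4 * J ^ 0

lemma PTb0C3_nonneg {L h a J : ℝ} (hL0 : 6931471 / 10000000 ≤ L) (hL1 : L ≤ 6931472 / 10000000)
    (hh0 : 233 / 1000 ≤ h) (hh1 : h ≤ 326 / 1000) (ha0 : 13 / 20 ≤ a) (ha1 : a ≤ 1)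
    (hJ0 : 0 ≤ J) (hJ1 : J ≤ 17 / 25) : 0 ≤ PTb0C3 L h a J := by
  obtain ⟨xl, hxl⟩ : ∃ x : ℝ, x = L - 6931471 / 10000000 := ⟨_, rfl⟩
  obtain ⟨xu, hxu⟩ : ∃ x : ℝ, x = 6931472 / 10000000 - L := ⟨_, rfl⟩
  obtain ⟨yl, hyl⟩ : ∃ x : ℝ, x = h - 233 / 1000 := ⟨_, rfl⟩
  obtain ⟨yu, hyu⟩ : ∃ x : ℝ, x = 326 / 1000 - h := ⟨_, rfl⟩
  obtain ⟨u, hu⟩ : ∃ x : ℝ, x = a - 13 / 20 := ⟨_, rfl⟩
  obtain ⟨v, hv⟩ : ∃ x : ℝ, x = 1 - a := ⟨_, rfl⟩
  obtain ⟨w, hw⟩ : ∃ x : ℝ, x = 17 / 25 - J := ⟨_, rfl⟩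
  have hxl0 : 0 ≤ xl := by rw [hxl]; linarith
  have hxu0 : 0 ≤ xu := by rw [hxu]; linarith
  have hyl0 : 0 ≤ yl := by rw [hyl]; linarith
  have hyu0 : 0 ≤ yu := by rw [hyu]; linarith
  have hu0 : 0 ≤ u := by rw [hu]; linarith
  have hv0 : 0 ≤ v := by rw [hv]; linarith
  have hw0 : 0 ≤ w := by rw [hw]; linarith
  have key : PTb0C3 L h a J =
      ((68449582253182 / 86736125) + (1392985760000 / 693889) * xl + (1616241731840 / 693889) * yu) * u ^ 0 * v ^ 4 * J ^ 0 * w ^ 2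
      + ((5278396719808 / 86736125) + (81996480000 / 693889) * xu + (364515463680 / 693889) * yu) * u ^ 0 * v ^ 4 * J ^ 1 * w ^ 1
      + ((10643466978016 / 433680625) + (52121952000 / 693889) * xu + (24447717120 / 99127) * yu) * u ^ 0 * v ^ 4 * J ^ 2 * w ^ 0
      + ((68482043339744 / 17347225) + (7049433600000 / 693889) * xl + (8014077132800 / 693889) * yu) * u ^ 1 * v ^ 3 * J ^ 0 * w ^ 2
      + ((17406892470848 / 17347225) + (1073331200000 / 693889) * xl + (3002618265600 / 693889) * yu) * u ^ 1 * v ^ 3 * J ^ 1 * w ^ 1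
      + ((17710313850368 / 433680625) + (334378496000 / 693889) * xu + (90037862400 / 99127) * yu) * u ^ 1 * v ^ 3 * J ^ 2 * w ^ 0
      + ((5051553245568 / 693889) + (13193472000000 / 693889) * xl + (14556700723200 / 693889) * yu) * u ^ 2 * v ^ 2 * J ^ 0 * w ^ 2
      + ((2074039990656 / 693889) + (4518144000000 / 693889) * xl + (7244601446400 / 693889) * yu) * u ^ 2 * v ^ 2 * J ^ 1 * w ^ 1
      + ((63825160470528 / 433680625) + (287318016000 / 693889) * xu + (153701529600 / 99127) * yu) * u ^ 2 * v ^ 2 * J ^ 2 * w ^ 0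
      + ((4060518094848 / 693889) + (10813440000000 / 693889) * xl + (11425022976000 / 693889) * yu) * u ^ 3 * v ^ 1 * J ^ 0 * w ^ 2
      + ((10989509787008 / 3469445) + (5494016000000 / 693889) * xl + (6717181952000 / 693889) * yu) * u ^ 3 * v ^ 1 * J ^ 1 * w ^ 1
      + ((107637091288448 / 433680625) + (222865408000 / 693889) * xl + (119206912000 / 99127) * yu) * u ^ 3 * v ^ 1 * J ^ 2 * w ^ 0
      + ((70506659840 / 40817) + (3276800000000 / 693889) * xl + (3251200000000 / 693889) * yu) * u ^ 4 * v ^ 0 * J ^ 0 * w ^ 2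
      + ((13388184576 / 12005) + (2131968000000 / 693889) * xl + (2080768000000 / 693889) * yu) * u ^ 4 * v ^ 0 * J ^ 1 * w ^ 1
      + ((583598060544 / 5102125) + (228311040000 / 693889) * xl + (4136960000 / 14161) * yu) * u ^ 4 * v ^ 0 * J ^ 2 * w ^ 0 := by
    simp only [hxl, hxu, hyl, hyu, hu, hv, hw]
    unfold PTb0C3
    ring
  rw [key]
  positivity

noncomputable def PTb0C4 (L h a J : ℝ) : ℝ :=
  ((-12848 / 625) + (128) * L + (-12544 / 625) * h) * a ^ 0 * J ^ 0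
    + ((0) + (128) * L + (-128) * h) * a ^ 0 * J ^ 1
    + ((0) + (8192) * L + (-8192) * h) * a ^ 0 * J ^ 2
    + ((0) + (0) * L + (64) * h) * a ^ 1 * J ^ 0
    + ((0) + (-16256) * L + (16256) * h) * a ^ 1 * J ^ 1
    + ((0) + (-1024) * L + (1024) * h) * a ^ 1 * J ^ 2
    + ((720368 / 625) + (7936) * L + (-6584896 / 625) * h) * a ^ 2 * J ^ 0
    + ((-149379 / 125) + (126) * L + (303488 / 125) * h) * a ^ 4 * J ^ 0

lemma PTb0C4_nonneg {L h a J : ℝ} (hL0 : 6931471 / 10000000 ≤ L) (hL1 : L ≤ 6931472 / 10000000)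
    (hh0 : 233 / 1000 ≤ h) (hh1 : h ≤ 326 / 1000) (ha0 : 13 / 20 ≤ a) (ha1 : a ≤ 1)
    (hJ0 : 0 ≤ J) (hJ1 : J ≤ 17 / 25) : 0 ≤ PTb0C4 L h a J := by
  obtain ⟨xl, hxl⟩ : ∃ x : ℝ, x = L - 6931471 / 10000000 := ⟨_, rfl⟩
  obtain ⟨xu, hxu⟩ : ∃ x : ℝ, x = 6931472 / 10000000 - L := ⟨_, rfl⟩
  obtain ⟨yl, hyl⟩ : ∃ x : ℝ, x = h - 233 / 1000 := ⟨_, rfl⟩
  obtain ⟨yu, hyu⟩ : ∃ x : ℝ, x = 326 / 1000 - h := ⟨_, rfl⟩
  obtain ⟨u, hu⟩ : ∃ x : ℝ, x = a - 13 / 20 := ⟨_, rfl⟩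
  obtain ⟨v, hv⟩ : ∃ x : ℝ, x = 1 - a := ⟨_, rfl⟩
  obtain ⟨w, hw⟩ : ∃ x : ℝ, x = 17 / 25 - J := ⟨_, rfl⟩
  have hxl0 : 0 ≤ xl := by rw [hxl]; linarith
  have hxu0 : 0 ≤ xu := by rw [hxu]; linarith
  have hyl0 : 0 ≤ yl := by rw [hyl]; linarith
  have hyu0 : 0 ≤ yu := by rw [hyu]; linarith
  have hu0 : 0 ≤ u := by rw [hu]; linarith
  have hv0 : 0 ≤ v := by rw [hv]; linarith
  have hw0 : 0 ≤ w := by rw [hw]; linarith
  have key : PTb0C4 L h a J =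
      ((22508595114577 / 113288000) + (50049311250 / 99127) * xl + (57092343680 / 99127) * yu) * u ^ 0 * v ^ 4 * J ^ 0 * w ^ 2
      + ((540184486213 / 24781750) + (1302977500 / 99127) * xu + (12783087360 / 99127) * yu) * u ^ 0 * v ^ 4 * J ^ 1 * w ^ 1
      + ((1798151523929 / 247817500) + (233577250 / 14161) * xu + (772570240 / 14161) * yu) * u ^ 0 * v ^ 4 * J ^ 2 * w ^ 0
      + ((9806937701203 / 9912700) + (252473300000 / 99127) * xl + (283197030400 / 99127) * yu) * u ^ 1 * v ^ 3 * J ^ 0 * w ^ 2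
      + ((1346458672339 / 4956350) + (44069800000 / 99127) * xl + (15073894400 / 14161) * yu) * u ^ 1 * v ^ 3 * J ^ 1 * w ^ 1
      + ((12815721732 / 1264375) + (11901996000 / 99127) * xu + (2688819200 / 14161) * yu) * u ^ 1 * v ^ 3 * J ^ 2 * w ^ 0
      + ((106040020109 / 58310) + (471571000000 / 99127) * xl + (514703948800 / 99127) * yu) * u ^ 2 * v ^ 2 * J ^ 0 * w ^ 2
      + ((112181098369 / 145775) + (24131600000 / 14161) * xl + (255187097600 / 99127) * yu) * u ^ 2 * v ^ 2 * J ^ 1 * w ^ 1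
      + ((1830451899608 / 61954375) + (11448776000 / 99127) * xu + (4526310400 / 14161) * yu) * u ^ 2 * v ^ 2 * J ^ 2 * w ^ 0
      + ((144604473708 / 99127) + (7880000000 / 2023) * xl + (404319744000 / 99127) * yu) * u ^ 3 * v ^ 1 * J ^ 0 * w ^ 2
      + ((283623688168 / 354025) + (200822400000 / 99127) * xl + (237221888000 / 99127) * yu) * u ^ 3 * v ^ 1 * J ^ 1 * w ^ 1
      + ((3260427257068 / 61954375) + (6468928000 / 99127) * xl + (3524096000 / 14161) * yu) * u ^ 3 * v ^ 1 * J ^ 2 * w ^ 0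
      + ((42643010700 / 99127) + (117000000000 / 99127) * xl + (115200000000 / 99127) * yu) * u ^ 4 * v ^ 0 * J ^ 0 * w ^ 2
      + ((138821754744 / 495635) + (77328000000 / 99127) * xl + (73728000000 / 99127) * yu) * u ^ 4 * v ^ 0 * J ^ 1 * w ^ 1
      + ((313208414812 / 12390875) + (7677760000 / 99127) * xl + (839680000 / 14161) * yu) * u ^ 4 * v ^ 0 * J ^ 2 * w ^ 0 := by
    simp only [hxl, hxu, hyl, hyu, hu, hv, hw]
    unfold PTb0C4
    ring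
  rw [key]
  positivity

end Vale.Agent.Lib.P322.Pot
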