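import Mathlib

/-!
P322, potential method, range `4/5 ≤ ρ ≤ 7/8`.  Auxiliary file for `PT_box1` (generated by a script): the five coefficients of the expansion of
`PTf` in the products `(d - d0)^j (d1 - d)^(4-j)`, each of them expanded in the products `(a-13/20)^i (1-a)^(4-i) J^k (17/25-J)^(2-k)`
with coefficients affine in `(L, h)` which are nonnegative on the box.
-/

namespace Vale.Agent.Lib.P322.Pot

noncomputable def PTb1C0 (L h a J : ℝ) : ℝ :=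
  ((-12848 / 625) + (128) * L + (-12544 / 625) * h) * a ^ 0 * J ^ 0
    + ((0) + (128) * L + (-128) * h) * a ^ 0 * J ^ 1
    + ((0) + (8192) * L + (-8192) * h) * a ^ 0 * J ^ 2
    + ((0) + (0) * L + (64) * h) * a ^ 1 * J ^ 0
    + ((0) + (-16256) * L + (16256) * h) * a ^ 1 * J ^ 1
    + ((0) + (-1024) * L + (1024) * h) * a ^ 1 * J ^ 2
    + ((720368 / 625) + (7936) * L + (-6584896 / 625) * h) * a ^ 2 * J ^ 0
    + ((-149379 / 125) + (126) * L + (303488 / 125) * h) * a ^ 4 * J ^ 0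

lemma PTb1C0_nonneg {L h a J : ℝ} (hL0 : 6931471 / 10000000 ≤ L) (hL1 : L ≤ 6931472 / 10000000)
    (hh0 : 233 / 1000 ≤ h) (hh1 : h ≤ 326 / 1000) (ha0 : 13 / 20 ≤ a) (ha1 : a ≤ 1)
    (hJ0 : 0 ≤ J) (hJ1 : J ≤ 17 / 25) : 0 ≤ PTb1C0 L h a J := by
  obtain ⟨xl, hxl⟩ : ∃ x : ℝ, x = L - 6931471 / 10000000 := ⟨_, rfl⟩
  obtain ⟨xu, hxu⟩ : ∃ x : ℝ, x = 6931472 / 10000000 - L := ⟨_, rfl⟩
  obtain ⟨yl, hyl⟩ : ∃ x : ℝ, x = h - 233 / 1000 := ⟨_, rfl⟩
  obtain ⟨yu, hyu⟩ : ∃ x : ℝ, x = 326 / 1000 - h := ⟨_, rfl⟩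
  obtain ⟨u, hu⟩ : ∃ x : ℝ, x = a - 13 / 20 := ⟨_, rfl⟩
  obtain ⟨v, hv⟩ : ∃ x : ℝ, x = 1 - a := ⟨_, rfl⟩
  obtain ⟨w, hw⟩ : ∃ x : ℝ, x = 17 / 25 - J := ⟨_, rfl⟩
  have hxl0 : 0 ≤ xl := by rw [hxl]; linarith
  have hxu0 : 0 ≤ xu := by rw [hxu]; linarith
  have hyl0 : 0 ≤ yl := by rw [hyl]; linarith
  have hyu0 : 0 ≤ yu := by rw [hyu]; linarith
  have hu0 : 0 ≤ u := by rw [hu]; linarith
  have hv0 : 0 ≤ v := by rw [hv]; linarith
  have hw0 : 0 ≤ w := by rw [hw]; linarith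
  have key : PTb1C0 L h a J =
      ((22508595114577 / 113288000) + (50049311250 / 99127) * xl + (57092343680 / 99127) * yu) * u ^ 0 * v ^ 4 * J ^ 0 * w ^ 2
      + ((540184486213 / 24781750) + (1302977500 / 99127) * xu + (12783087360 / 99127) * yu) * u ^ 0 * v ^ 4 * J ^ 1 * w ^ 1
      + ((1798151523929 / 247817500) + (233577250 / 14161) * xu + (772570240 / 14161) * yu) * u ^ 0 * v ^ 4 * J ^ 2 * w ^ 0
      + ((9806937701203 / 9912700) + (252473300000 / 99127) * xl + (283197030400 / 99127) * yu) * u ^ 1 * v ^ 3 * J ^ 0 * w ^ 2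
      + ((1346458672339 / 4956350) + (44069800000 / 99127) * xl + (15073894400 / 14161) * yu) * u ^ 1 * v ^ 3 * J ^ 1 * w ^ 1
      + ((12815721732 / 1264375) + (11901996000 / 99127) * xu + (2688819200 / 14161) * yu) * u ^ 1 * v ^ 3 * J ^ 2 * w ^ 0
      + ((106040020109 / 58310) + (471571000000 / 99127) * xl + (514703948800 / 99127) * yu) * u ^ 2 * v ^ 2 * J ^ 0 * w ^ 2
      + ((112181098369 / 145775) + (24131600000 / 14161) * xl + (255187097600 / 99127) * yu) * u ^ 2 * v ^ 2 * J ^ 1 * w ^ 1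
      + ((1830451899608 / 61954375) + (11448776000 / 99127) * xu + (4526310400 / 14161) * yu) * u ^ 2 * v ^ 2 * J ^ 2 * w ^ 0
      + ((144604473708 / 99127) + (7880000000 / 2023) * xl + (404319744000 / 99127) * yu) * u ^ 3 * v ^ 1 * J ^ 0 * w ^ 2
      + ((283623688168 / 354025) + (200822400000 / 99127) * xl + (237221888000 / 99127) * yu) * u ^ 3 * v ^ 1 * J ^ 1 * w ^ 1
      + ((3260427257068 / 61954375) + (6468928000 / 99127) * xl + (3524096000 / 14161) * yu) * u ^ 3 * v ^ 1 * J ^ 2 * w ^ 0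
      + ((42643010700 / 99127) + (117000000000 / 99127) * xl + (115200000000 / 99127) * yu) * u ^ 4 * v ^ 0 * J ^ 0 * w ^ 2
      + ((138821754744 / 495635) + (77328000000 / 99127) * xl + (73728000000 / 99127) * yu) * u ^ 4 * v ^ 0 * J ^ 1 * w ^ 1
      + ((313208414812 / 12390875) + (7677760000 / 99127) * xl + (839680000 / 14161) * yu) * u ^ 4 * v ^ 0 * J ^ 2 * w ^ 0 := by
    simp only [hxl, hxu, hyl, hyu, hu, hv, hw]
    unfold PTb1C0
    ring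
  rw [key]
  positivity

noncomputable def PTb1C1 (L h a J : ℝ) : ℝ :=
  ((-77088 / 625) + (768) * L + (-75264 / 625) * h) * a ^ 0 * J ^ 0
    + ((0) + (768) * L + (-768) * h) * a ^ 0 * J ^ 1
    + ((0) + (32768) * L + (-32768) * h) * a ^ 0 * J ^ 2
    + ((0) + (0) * L + (384) * h) * a ^ 1 * J ^ 0
    + ((0) + (-64768) * L + (64768) * h) * a ^ 1 * J ^ 1
    + ((0) + (-5120) * L + (5120) * h) * a ^ 1 * J ^ 2
    + ((2827168 / 625) + (31232) * L + (-26074496 / 625) * h) * a ^ 2 * J ^ 0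
    + ((-597016 / 125) + (752) * L + (1181952 / 125) * h) * a ^ 4 * J ^ 0

lemma PTb1C1_nonneg {L h a J : ℝ} (hL0 : 6931471 / 10000000 ≤ L) (hL1 : L ≤ 6931472 / 10000000)
    (hh0 : 233 / 1000 ≤ h) (hh1 : h ≤ 326 / 1000) (ha0 : 13 / 20 ≤ a) (ha1 : a ≤ 1)
    (hJ0 : 0 ≤ J) (hJ1 : J ≤ 17 / 25) : 0 ≤ PTb1C1 L h a J := by
  obtain ⟨xl, hxl⟩ : ∃ x : ℝ, x = L - 6931471 / 10000000 := ⟨_, rfl⟩
  obtain ⟨xu, hxu⟩ : ∃ x : ℝ, x = 6931472 / 10000000 - L := ⟨_, rfl⟩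
  obtain ⟨yl, hyl⟩ : ∃ x : ℝ, x = h - 233 / 1000 := ⟨_, rfl⟩
  obtain ⟨yu, hyu⟩ : ∃ x : ℝ, x = 326 / 1000 - h := ⟨_, rfl⟩
  obtain ⟨u, hu⟩ : ∃ x : ℝ, x = a - 13 / 20 := ⟨_, rfl⟩
  obtain ⟨v, hv⟩ : ∃ x : ℝ, x = 1 - a := ⟨_, rfl⟩
  obtain ⟨w, hw⟩ : ∃ x : ℝ, x = 17 / 25 - J := ⟨_, rfl⟩
  have hxl0 : 0 ≤ xl := by rw [hxl]; linarith
  have hxu0 : 0 ≤ xu := by rw [hxu]; linarith
  have hyl0 : 0 ≤ yl := by rw [hyl]; linarith
  have hyu0 : 0 ≤ yu := by rw [hyu]; linarith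
  have hu0 : 0 ≤ u := by rw [hu]; linarith
  have hv0 : 0 ≤ v := by rw [hv]; linarith
  have hw0 : 0 ≤ w := by rw [hw]; linarith
  have key : PTb1C1 L h a J =
      ((555324502588817 / 693889000) + (1409775670000 / 693889) * xl + (1580929514240 / 693889) * yu) * u ^ 0 * v ^ 4 * J ^ 0 * w ^ 2
      + ((39387075125137 / 346944500) + (9029740000 / 693889) * xl + (351337428480 / 693889) * yu) * u ^ 0 * v ^ 4 * J ^ 1 * w ^ 1
      + ((2906130871398 / 86736125) + (39440330000 / 693889) * xu + (18816216320 / 99127) * yu) * u ^ 0 * v ^ 4 * J ^ 2 * w ^ 0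
      + ((68815084477098 / 17347225) + (7089071200000 / 693889) * xl + (7844956569600 / 693889) * yu) * u ^ 1 * v ^ 3 * J ^ 0 * w ^ 2
      + ((20293950354644 / 17347225) + (1394577600000 / 693889) * xl + (2906348339200 / 693889) * yu) * u ^ 1 * v ^ 3 * J ^ 1 * w ^ 1
      + ((3491205316448 / 86736125) + (332133280000 / 693889) * xu + (60536012800 / 99127) * yu) * u ^ 1 * v ^ 3 * J ^ 2 * w ^ 0
      + ((25217283344044 / 3469445) + (13214504000000 / 693889) * xl + (14266720409600 / 693889) * yu) * u ^ 2 * v ^ 2 * J ^ 0 * w ^ 2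
      + ((54945405880888 / 17347225) + (4941443200000 / 693889) * xl + (7045876019200 / 693889) * yu) * u ^ 2 * v ^ 2 * J ^ 1 * w ^ 1
      + ((7736029181504 / 86736125) + (353813440000 / 693889) * xu + (99771852800 / 99127) * yu) * u ^ 2 * v ^ 2 * J ^ 2 * w ^ 0
      + ((4037332432800 / 693889) + (635840000000 / 40817) * xl + (11216882688000 / 693889) * yu) * u ^ 3 * v ^ 1 * J ^ 0 * w ^ 2
      + ((56232936826816 / 17347225) + (338355200000 / 40817) * xl + (6567243776000 / 693889) * yu) * u ^ 3 * v ^ 1 * J ^ 1 * w ^ 1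
      + ((14989367021472 / 86736125) + (8199680000 / 40817) * xl + (78142464000 / 99127) * yu) * u ^ 3 * v ^ 1 * J ^ 2 * w ^ 0
      + ((1189395381920 / 693889) + (3275200000000 / 693889) * xl + (3200000000000 / 693889) * yu) * u ^ 4 * v ^ 0 * J ^ 0 * w ^ 2
      + ((780966584640 / 693889) + (2198400000000 / 693889) * xl + (2048000000000 / 693889) * yu) * u ^ 4 * v ^ 0 * J ^ 1 * w ^ 1
      + ((7618504200224 / 86736125) + (201643520000 / 693889) * xl + (368640000 / 2023) * yu) * u ^ 4 * v ^ 0 * J ^ 2 * w ^ 0 := by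
    simp only [hxl, hxu, hyl, hyu, hu, hv, hw]
    unfold PTb1C1
    ring
  rw [key]
  positivity

noncomputable def PTb1C2 (L h a J : ℝ) : ℝ :=
  ((-167024 / 625) + (1664) * L + (-163072 / 625) * h) * a ^ 0 * J ^ 0
    + ((0) + (1664) * L + (-1664) * h) * a ^ 0 * J ^ 1
    + ((0) + (49152) * L + (-49152) * h) * a ^ 0 * J ^ 2
    + ((0) + (0) * L + (832) * h) * a ^ 1 * J ^ 0
    + ((0) + (-96640) * L + (96640) * h) * a ^ 1 * J ^ 1
    + ((0) + (-9216) * L + (9216) * h) * a ^ 1 * J ^ 2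
    + ((4132144 / 625) + (45824) * L + (-38581568 / 625) * h) * a ^ 2 * J ^ 0
    + ((-894024 / 125) + (1616) * L + (1708928 / 125) * h) * a ^ 4 * J ^ 0

lemma PTb1C2_nonneg {L h a J : ℝ} (hL0 : 6931471 / 10000000 ≤ L) (hL1 : L ≤ 6931472 / 10000000)
    (hh0 : 233 / 1000 ≤ h) (hh1 : h ≤ 326 / 1000) (ha0 : 13 / 20 ≤ a) (ha1 : a ≤ 1)
    (hJ0 : 0 ≤ J) (hJ1 : J ≤ 17 / 25) : 0 ≤ PTb1C2 L h a J := by
  obtain ⟨xl, hxl⟩ : ∃ x : ℝ, x = L - 6931471 / 10000000 := ⟨_, rfl⟩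
  obtain ⟨xu, hxu⟩ : ∃ x : ℝ, x = 6931472 / 10000000 - L := ⟨_, rfl⟩
  obtain ⟨yl, hyl⟩ : ∃ x : ℝ, x = h - 233 / 1000 := ⟨_, rfl⟩
  obtain ⟨yu, hyu⟩ : ∃ x : ℝ, x = 326 / 1000 - h := ⟨_, rfl⟩
  obtain ⟨u, hu⟩ : ∃ x : ℝ, x = a - 13 / 20 := ⟨_, rfl⟩
  obtain ⟨v, hv⟩ : ∃ x : ℝ, x = 1 - a := ⟨_, rfl⟩
  obtain ⟨w, hw⟩ : ∃ x : ℝ, x = 17 / 25 - J := ⟨_, rfl⟩
  have hxl0 : 0 ≤ xl := by rw [hxl]; linarith
  have hxu0 : 0 ≤ xu := by rw [hxu]; linarith
  have hyl0 : 0 ≤ yl := by rw [hyl]; linarith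
  have hyu0 : 0 ≤ yu := by rw [hyu]; linarith
  have hu0 : 0 ≤ u := by rw [hu]; linarith
  have hv0 : 0 ≤ v := by rw [hv]; linarith
  have hw0 : 0 ≤ w := by rw [hw]; linarith
  have key : PTb1C2 L h a J =
      ((840687016074971 / 693889000) + (2131310610000 / 693889) * xl + (333726007680 / 99127) * yu) * u ^ 0 * v ^ 4 * J ^ 0 * w ^ 2
      + ((77326514462171 / 346944500) + (104285220000 / 693889) * xl + (73404015360 / 99127) * yu) * u ^ 0 * v ^ 4 * J ^ 1 * w ^ 1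
      + ((1717477783594 / 25510625) + (4461858000 / 99127) * xu + (173538437760 / 693889) * yu) * u ^ 0 * v ^ 4 * J ^ 2 * w ^ 0
      + ((103551424411214 / 17347225) + (10672365600000 / 693889) * xl + (1656902041600 / 99127) * yu) * u ^ 1 * v ^ 3 * J ^ 0 * w ^ 2
      + ((33319496532188 / 17347225) + (2411355200000 / 693889) * xl + (609036083200 / 99127) * yu) * u ^ 1 * v ^ 3 * J ^ 1 * w ^ 1
      + ((41849847388064 / 433680625) + (60998944000 / 99127) * xu + (498956083200 / 693889) * yu) * u ^ 1 * v ^ 3 * J ^ 2 * w ^ 0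
      + ((37783483620676 / 3469445) + (19840760000000 / 693889) * xl + (3015728614400 / 99127) * yu) * u ^ 2 * v ^ 2 * J ^ 0 * w ^ 2
      + ((17098585963976 / 3469445) + (7831408000000 / 693889) * xl + (1481441228800 / 99127) * yu) * u ^ 2 * v ^ 2 * J ^ 1 * w ^ 1
      + ((59521778482624 / 433680625) + (68864704000 / 99127) * xu + (787287372800 / 693889) * yu) * u ^ 2 * v ^ 2 * J ^ 2 * w ^ 0
      + ((6032411241184 / 693889) + (16207680000000 / 693889) * xl + (2373883392000 / 99127) * yu) * u ^ 3 * v ^ 1 * J ^ 0 * w ^ 2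
      + ((3424588233344 / 693889) + (8881920000000 / 693889) * xl + (197978112000 / 14161) * yu) * u ^ 3 * v ^ 1 * J ^ 1 * w ^ 1
      + ((99307903313824 / 433680625) + (29993472000 / 99127) * xl + (619458048000 / 693889) * yu) * u ^ 3 * v ^ 1 * J ^ 2 * w ^ 0
      + ((1774720719840 / 693889) + (4910400000000 / 693889) * xl + (678400000000 / 99127) * yu) * u ^ 4 * v ^ 0 * J ^ 0 * w ^ 2
      + ((5891351788736 / 3469445) + (3362432000000 / 693889) * xl + (434176000000 / 99127) * yu) * u ^ 4 * v ^ 0 * J ^ 1 * w ^ 1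
      + ((10192299203168 / 86736125) + (6095360000 / 14161) * xl + (137072640000 / 693889) * yu) * u ^ 4 * v ^ 0 * J ^ 2 * w ^ 0 := by
    simp only [hxl, hxu, hyl, hyu, hu, hv, hw]
    unfold PTb1C2
    ring
  rw [key]
  positivity

noncomputable def PTb1C3 (L h a J : ℝ) : ℝ :=
  ((-154176 / 625) + (1536) * L + (-150528 / 625) * h) * a ^ 0 * J ^ 0
    + ((0) + (1536) * L + (-1536) * h) * a ^ 0 * J ^ 1
    + ((0) + (32768) * L + (-32768) * h) * a ^ 0 * J ^ 2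
    + ((0) + (0) * L + (768) * h) * a ^ 1 * J ^ 0
    + ((0) + (-64000) * L + (64000) * h) * a ^ 1 * J ^ 1
    + ((0) + (-7168) * L + (7168) * h) * a ^ 1 * J ^ 2
    + ((2664256 / 625) + (29696) * L + (-25279232 / 625) * h) * a ^ 2 * J ^ 0
    + ((-594016 / 125) + (1472) * L + (1085952 / 125) * h) * a ^ 4 * J ^ 0

lemma PTb1C3_nonneg {L h a J : ℝ} (hL0 : 6931471 / 10000000 ≤ L) (hL1 : L ≤ 6931472 / 10000000)
    (hh0 : 233 / 1000 ≤ h) (hh1 : h ≤ 326 / 1000) (ha0 : 13 / 20 ≤ a) (ha1 : a ≤ 1)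
    (hJ0 : 0 ≤ J) (hJ1 : J ≤ 17 / 25) : 0 ≤ PTb1C3 L h a J := by
  obtain ⟨xl, hxl⟩ : ∃ x : ℝ, x = L - 6931471 / 10000000 := ⟨_, rfl⟩
  obtain ⟨xu, hxu⟩ : ∃ x : ℝ, x = 6931472 / 10000000 - L := ⟨_, rfl⟩
  obtain ⟨yl, hyl⟩ : ∃ x : ℝ, x = h - 233 / 1000 := ⟨_, rfl⟩
  obtain ⟨yu, hyu⟩ : ∃ x : ℝ, x = 326 / 1000 - h := ⟨_, rfl⟩
  obtain ⟨u, hu⟩ : ∃ x : ℝ, x = a - 13 / 20 := ⟨_, rfl⟩
  obtain ⟨v, hv⟩ : ∃ x : ℝ, x = 1 - a := ⟨_, rfl⟩
  obtain ⟨w, hw⟩ : ∃ x : ℝ, x = 17 / 25 - J := ⟨_, rfl⟩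
  have hxl0 : 0 ≤ xl := by rw [hxl]; linarith
  have hxu0 : 0 ≤ xu := by rw [hxu]; linarith
  have hyl0 : 0 ≤ yl := by rw [hyl]; linarith
  have hyu0 : 0 ≤ yu := by rw [hyu]; linarith
  have hu0 : 0 ≤ u := by rw [hu]; linarith
  have hv0 : 0 ≤ v := by rw [hv]; linarith
  have hw0 : 0 ≤ w := by rw [hw]; linarith
  have key : PTb1C3 L h a J =
      ((141708380579753 / 173472250) + (204933160000 / 99127) * xl + (1527961187840 / 693889) * yu) * u ^ 0 * v ^ 4 * J ^ 0 * w ^ 2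
      + ((16678638557353 / 86736125) + (144712240000 / 693889) * xl + (331570375680 / 693889) * yu) * u ^ 0 * v ^ 4 * J ^ 1 * w ^ 1
      + ((54744205253709 / 867361250) + (9931032000 / 693889) * xl + (103360099840 / 693889) * yu) * u ^ 0 * v ^ 4 * J ^ 2 * w ^ 0
      + ((69301915857768 / 17347225) + (1020841600000 / 99127) * xl + (7591275724800 / 693889) * yu) * u ^ 1 * v ^ 3 * J ^ 0 * w ^ 2
      + ((24599076529616 / 17347225) + (1871174400000 / 693889) * xl + (2761943449600 / 693889) * yu) * u ^ 1 * v ^ 3 * J ^ 1 * w ^ 1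
      + ((48808699146112 / 433680625) + (191720064000 / 693889) * xu + (253664460800 / 693889) * yu) * u ^ 1 * v ^ 3 * J ^ 2 * w ^ 0
      + ((25150683483568 / 3469445) + (1891424000000 / 99127) * xl + (13831749939200 / 693889) * yu) * u ^ 2 * v ^ 2 * J ^ 0 * w ^ 2
      + ((2381130388192 / 693889) + (5564224000000 / 693889) * xl + (6747787878400 / 693889) * yu) * u ^ 2 * v ^ 2 * J ^ 1 * w ^ 1
      + ((54010958355712 / 433680625) + (225259264000 / 693889) * xu + (366522675200 / 693889) * yu) * u ^ 2 * v ^ 2 * J ^ 2 * w ^ 0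
      + ((4001348701824 / 693889) + (1542400000000 / 99127) * xl + (10904672256000 / 693889) * yu) * u ^ 3 * v ^ 1 * J ^ 0 * w ^ 2
      + ((11620151353856 / 3469445) + (6126592000000 / 693889) * xl + (6342336512000 / 693889) * yu) * u ^ 3 * v ^ 1 * J ^ 1 * w ^ 1
      + ((64816173273472 / 433680625) + (180774912000 / 693889) * xl + (288647168000 / 693889) * yu) * u ^ 3 * v ^ 1 * J ^ 2 * w ^ 0
      + ((1175105075840 / 693889) + (467200000000 / 99127) * xl + (3123200000000 / 693889) * yu) * u ^ 4 * v ^ 0 * J ^ 0 * w ^ 2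
      + ((3953668763904 / 3469445) + (2293248000000 / 693889) * xl + (1998848000000 / 693889) * yu) * u ^ 4 * v ^ 0 * J ^ 1 * w ^ 1
      + ((251184268416 / 3469445) + (206592000000 / 693889) * xl + (59392000000 / 693889) * yu) * u ^ 4 * v ^ 0 * J ^ 2 * w ^ 0 := by
    simp only [hxl, hxu, hyl, hyu, hu, hv, hw]
    unfold PTb1C3
    ring
  rw [key]
  positivity

noncomputable def PTb1C4 (L h a J : ℝ) : ℝ :=
  ((-51392 / 625) + (512) * L + (-50176 / 625) * h) * a ^ 0 * J ^ 0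
    + ((0) + (512) * L + (-512) * h) * a ^ 0 * J ^ 1
    + ((0) + (8192) * L + (-8192) * h) * a ^ 0 * J ^ 2
    + ((0) + (0) * L + (256) * h) * a ^ 1 * J ^ 0
    + ((0) + (-15872) * L + (15872) * h) * a ^ 1 * J ^ 1
    + ((0) + (-2048) * L + (2048) * h) * a ^ 1 * J ^ 2
    + ((638912 / 625) + (7168) * L + (-6187264 / 625) * h) * a ^ 2 * J ^ 0
    + ((-147504 / 125) + (480) * L + (255488 / 125) * h) * a ^ 4 * J ^ 0

lemma PTb1C4_nonneg {L h a J : ℝ} (hL0 : 6931471 / 10000000 ≤ L) (hL1 : L ≤ 6931472 / 10000000)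
    (hh0 : 233 / 1000 ≤ h) (hh1 : h ≤ 326 / 1000) (ha0 : 13 / 20 ≤ a) (ha1 : a ≤ 1)
    (hJ0 : 0 ≤ J) (hJ1 : J ≤ 17 / 25) : 0 ≤ PTb1C4 L h a J := by
  obtain ⟨xl, hxl⟩ : ∃ x : ℝ, x = L - 6931471 / 10000000 := ⟨_, rfl⟩
  obtain ⟨xu, hxu⟩ : ∃ x : ℝ, x = 6931472 / 10000000 - L := ⟨_, rfl⟩
  obtain ⟨yl, hyl⟩ : ∃ x : ℝ, x = h - 233 / 1000 := ⟨_, rfl⟩
  obtain ⟨yu, hyu⟩ : ∃ x : ℝ, x = 326 / 1000 - h := ⟨_, rfl⟩
  obtain ⟨u, hu⟩ : ∃ x : ℝ, x = a - 13 / 20 := ⟨_, rfl⟩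
  obtain ⟨v, hv⟩ : ∃ x : ℝ, x = 1 - a := ⟨_, rfl⟩
  obtain ⟨w, hw⟩ : ∃ x : ℝ, x = 17 / 25 - J := ⟨_, rfl⟩
  have hxl0 : 0 ≤ xl := by rw [hxl]; linarith
  have hxu0 : 0 ≤ xu := by rw [hxu]; linarith
  have hyl0 : 0 ≤ yl := by rw [hyl]; linarith
  have hyu0 : 0 ≤ yu := by rw [hyu]; linarith
  have hu0 : 0 ≤ u := by rw [hu]; linarith
  have hv0 : 0 ≤ v := by rw [hv]; linarith
  have hw0 : 0 ≤ w := by rw [hw]; linarith
  have key : PTb1C4 L h a J =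
      ((14359896816317 / 69388900) + (362616300000 / 693889) * xl + (373162242560 / 693889) * yu) * u ^ 0 * v ^ 4 * J ^ 0 * w ^ 2
      + ((424112720729 / 6938890) + (58506200000 / 693889) * xl + (79598085120 / 693889) * yu) * u ^ 0 * v ^ 4 * J ^ 1 * w ^ 1
      + ((38218238191733 / 1734722500) + (13133292000 / 693889) * xl + (23679234560 / 693889) * yu) * u ^ 0 * v ^ 4 * J ^ 2 * w ^ 0
      + ((696094963444 / 693889) + (105592000000 / 40817) * xl + (1855538790400 / 693889) * yu) * u ^ 1 * v ^ 3 * J ^ 0 * w ^ 2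
      + ((6858803277992 / 17347225) + (32086400000 / 40817) * xl + (666418380800 / 693889) * yu) * u ^ 1 * v ^ 3 * J ^ 1 * w ^ 1
      + ((19992564261312 / 433680625) + (809792000 / 40817) * xu + (46708326400 / 693889) * yu) * u ^ 1 * v ^ 3 * J ^ 2 * w ^ 0
      + ((6274612382552 / 3469445) + (3312208000000 / 693889) * xl + (3385442406400 / 693889) * yu) * u ^ 2 * v ^ 2 * J ^ 0 * w ^ 2
      + ((15626288780912 / 17347225) + (1490796800000 / 693889) * xl + (1637265612800 / 693889) * yu) * u ^ 2 * v ^ 2 * J ^ 1 * w ^ 1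
      + ((20294958964352 / 433680625) + (17385344000 / 693889) * xu + (55849062400 / 693889) * yu) * u ^ 2 * v ^ 2 * J ^ 2 * w ^ 0
      + ((993938140992 / 693889) + (2695040000000 / 693889) * xl + (2674132992000 / 693889) * yu) * u ^ 3 * v ^ 1 * J ^ 0 * w ^ 2
      + ((14816405217664 / 17347225) + (1589913600000 / 693889) * xl + (1548099584000 / 693889) * yu) * u ^ 3 * v ^ 1 * J ^ 1 * w ^ 1
      + ((17569341460032 / 433680625) + (64412672000 / 693889) * xl + (43505664000 / 693889) * yu) * u ^ 3 * v ^ 1 * J ^ 2 * w ^ 0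
      + ((291240033600 / 693889) + (48000000000 / 40817) * xl + (768000000000 / 693889) * yu) * u ^ 4 * v ^ 0 * J ^ 0 * w ^ 2
      + ((199002264192 / 693889) + (34560000000 / 40817) * xl + (491520000000 / 693889) * yu) * u ^ 4 * v ^ 0 * J ^ 1 * w ^ 1
      + ((1508524126272 / 86736125) + (3271680000 / 40817) * xl + (7618560000 / 693889) * yu) * u ^ 4 * v ^ 0 * J ^ 2 * w ^ 0 := by
    simp only [hxl, hxu, hyl, hyu, hu, hv, hw]
    unfold PTb1C4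
    ring
  rw [key]
  positivity

end Vale.Agent.Lib.P322.Pot
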