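import Mathlib

/-!
P322, potential method, range `4/5 ≤ ρ ≤ 7/8`.  Auxiliary file for `PT_box2` (generated by a script): the five coefficients of the expansion of
`PTf` in the products `(d - d0)^j (d1 - d)^(4-j)`, each of them expanded in the products `(a-13/20)^i (1-a)^(4-i) J^k (17/25-J)^(2-k)`
with coefficients affine in `(L, h)` which are nonnegative on the box.
-/

namespace Vale.Agent.Lib.P322.Pot

noncomputable def PTb2C0 (L h a J : ℝ) : ℝ :=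
  ((-3212 / 625) + (32) * L + (-3136 / 625) * h) * a ^ 0 * J ^ 0
    + ((0) + (32) * L + (-32) * h) * a ^ 0 * J ^ 1
    + ((0) + (512) * L + (-512) * h) * a ^ 0 * J ^ 2
    + ((0) + (0) * L + (16) * h) * a ^ 1 * J ^ 0
    + ((0) + (-992) * L + (992) * h) * a ^ 1 * J ^ 1
    + ((0) + (-128) * L + (128) * h) * a ^ 1 * J ^ 2
    + ((39932 / 625) + (448) * L + (-386704 / 625) * h) * a ^ 2 * J ^ 0
    + ((-9219 / 125) + (30) * L + (15968 / 125) * h) * a ^ 4 * J ^ 0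

lemma PTb2C0_nonneg {L h a J : ℝ} (hL0 : 6931471 / 10000000 ≤ L) (hL1 : L ≤ 6931472 / 10000000)
    (hh0 : 233 / 1000 ≤ h) (hh1 : h ≤ 326 / 1000) (ha0 : 13 / 20 ≤ a) (ha1 : a ≤ 1)
    (hJ0 : 0 ≤ J) (hJ1 : J ≤ 17 / 25) : 0 ≤ PTb2C0 L h a J := by
  obtain ⟨xl, hxl⟩ : ∃ x : ℝ, x = L - 6931471 / 10000000 := ⟨_, rfl⟩
  obtain ⟨xu, hxu⟩ : ∃ x : ℝ, x = 6931472 / 10000000 - L := ⟨_, rfl⟩
  obtain ⟨yl, hyl⟩ : ∃ x : ℝ, x = h - 233 / 1000 := ⟨_, rfl⟩
  obtain ⟨yu, hyu⟩ : ∃ x : ℝ, x = 326 / 1000 - h := ⟨_, rfl⟩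
  obtain ⟨u, hu⟩ : ∃ x : ℝ, x = a - 13 / 20 := ⟨_, rfl⟩
  obtain ⟨v, hv⟩ : ∃ x : ℝ, x = 1 - a := ⟨_, rfl⟩
  obtain ⟨w, hw⟩ : ∃ x : ℝ, x = 17 / 25 - J := ⟨_, rfl⟩
  have hxl0 : 0 ≤ xl := by rw [hxl]; linarith
  have hxu0 : 0 ≤ xu := by rw [hxu]; linarith
  have hyl0 : 0 ≤ yl := by rw [hyl]; linarith
  have hyu0 : 0 ≤ yu := by rw [hyu]; linarith
  have hu0 : 0 ≤ u := by rw [hu]; linarith
  have hv0 : 0 ≤ v := by rw [hv]; linarith
  have hw0 : 0 ≤ w := by rw [hw]; linarith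
  have key : PTb2C0 L h a J =
      ((14359896816317 / 1110222400) + (22663518750 / 693889) * xl + (23322640160 / 693889) * yu) * u ^ 0 * v ^ 4 * J ^ 0 * w ^ 2
      + ((424112720729 / 111022240) + (3656637500 / 693889) * xl + (4974880320 / 693889) * yu) * u ^ 0 * v ^ 4 * J ^ 1 * w ^ 1
      + ((38218238191733 / 27755560000) + (820830750 / 693889) * xl + (1479952160 / 693889) * yu) * u ^ 0 * v ^ 4 * J ^ 2 * w ^ 0
      + ((174023740861 / 2775556) + (6599500000 / 40817) * xl + (115971174400 / 693889) * yu) * u ^ 1 * v ^ 3 * J ^ 0 * w ^ 2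
      + ((857350409749 / 34694450) + (2005400000 / 40817) * xl + (41651148800 / 693889) * yu) * u ^ 1 * v ^ 3 * J ^ 1 * w ^ 1
      + ((1249535266332 / 433680625) + (50612000 / 40817) * xu + (2919270400 / 693889) * yu) * u ^ 1 * v ^ 3 * J ^ 2 * w ^ 0
      + ((784326547819 / 6938890) + (207013000000 / 693889) * xl + (211590150400 / 693889) * yu) * u ^ 2 * v ^ 2 * J ^ 0 * w ^ 2
      + ((976643048807 / 17347225) + (93174800000 / 693889) * xl + (102329100800 / 693889) * yu) * u ^ 2 * v ^ 2 * J ^ 1 * w ^ 1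
      + ((1268434935272 / 433680625) + (1086584000 / 693889) * xu + (3490566400 / 693889) * yu) * u ^ 2 * v ^ 2 * J ^ 2 * w ^ 0
      + ((62121133812 / 693889) + (168440000000 / 693889) * xl + (167133312000 / 693889) * yu) * u ^ 3 * v ^ 1 * J ^ 0 * w ^ 2
      + ((926025326104 / 17347225) + (99369600000 / 693889) * xl + (96756224000 / 693889) * yu) * u ^ 3 * v ^ 1 * J ^ 1 * w ^ 1
      + ((1098083841252 / 433680625) + (4025792000 / 693889) * xl + (2719104000 / 693889) * yu) * u ^ 3 * v ^ 1 * J ^ 2 * w ^ 0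
      + ((18202502100 / 693889) + (3000000000 / 40817) * xl + (48000000000 / 693889) * yu) * u ^ 4 * v ^ 0 * J ^ 0 * w ^ 2
      + ((12437641512 / 693889) + (2160000000 / 40817) * xl + (30720000000 / 693889) * yu) * u ^ 4 * v ^ 0 * J ^ 1 * w ^ 1
      + ((94282757892 / 86736125) + (204480000 / 40817) * xl + (476160000 / 693889) * yu) * u ^ 4 * v ^ 0 * J ^ 2 * w ^ 0 := by
    simp only [hxl, hxu, hyl, hyu, hu, hv, hw]
    unfold PTb2C0
    ring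
  rw [key]
  positivity

noncomputable def PTb2C1 (L h a J : ℝ) : ℝ :=
  ((-19272 / 625) + (192) * L + (-18816 / 625) * h) * a ^ 0 * J ^ 0
    + ((0) + (192) * L + (-192) * h) * a ^ 0 * J ^ 1
    + ((0) + (2048) * L + (-2048) * h) * a ^ 0 * J ^ 2
    + ((0) + (0) * L + (96) * h) * a ^ 1 * J ^ 0
    + ((0) + (-3904) * L + (3904) * h) * a ^ 1 * J ^ 1
    + ((0) + (-640) * L + (640) * h) * a ^ 1 * J ^ 2
    + ((146152 / 625) + (1664) * L + (-1480544 / 625) * h) * a ^ 2 * J ^ 0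
    + ((-36376 / 125) + (176) * L + (55872 / 125) * h) * a ^ 4 * J ^ 0

lemma PTb2C1_nonneg {L h a J : ℝ} (hL0 : 6931471 / 10000000 ≤ L) (hL1 : L ≤ 6931472 / 10000000)
    (hh0 : 233 / 1000 ≤ h) (hh1 : h ≤ 326 / 1000) (ha0 : 13 / 20 ≤ a) (ha1 : a ≤ 1)
    (hJ0 : 0 ≤ J) (hJ1 : J ≤ 17 / 25) : 0 ≤ PTb2C1 L h a J := by
  obtain ⟨xl, hxl⟩ : ∃ x : ℝ, x = L - 6931471 / 10000000 := ⟨_, rfl⟩
  obtain ⟨xu, hxu⟩ : ∃ x : ℝ, x = 6931472 / 10000000 - L := ⟨_, rfl⟩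
  obtain ⟨yl, hyl⟩ : ∃ x : ℝ, x = h - 233 / 1000 := ⟨_, rfl⟩
  obtain ⟨yu, hyu⟩ : ∃ x : ℝ, x = 326 / 1000 - h := ⟨_, rfl⟩
  obtain ⟨u, hu⟩ : ∃ x : ℝ, x = a - 13 / 20 := ⟨_, rfl⟩
  obtain ⟨v, hv⟩ : ∃ x : ℝ, x = 1 - a := ⟨_, rfl⟩
  obtain ⟨w, hw⟩ : ∃ x : ℝ, x = 17 / 25 - J := ⟨_, rfl⟩
  have hxl0 : 0 ≤ xl := by rw [hxl]; linarith
  have hxu0 : 0 ≤ xu := by rw [hxu]; linarith
  have hyl0 : 0 ≤ yl := by rw [hyl]; linarith
  have hyu0 : 0 ≤ yu := by rw [hyu]; linarith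
  have hu0 : 0 ≤ u := by rw [hu]; linarith
  have hv0 : 0 ≤ v := by rw [hv]; linarith
  have hw0 : 0 ≤ w := by rw [hw]; linarith
  have key : PTb2C1 L h a J =
      ((36845035832501 / 693889000) + (92645710000 / 693889) * xl + (88876533440 / 693889) * yu) * u ^ 0 * v ^ 4 * J ^ 0 * w ^ 2
      + ((7564907748661 / 346944500) + (25790620000 / 693889) * xl + (18252266880 / 693889) * yu) * u ^ 0 * v ^ 4 * J ^ 1 * w ^ 1
      + ((5991050932149 / 693889000) + (8608590000 / 693889) * xl + (4839413440 / 693889) * yu) * u ^ 0 * v ^ 4 * J ^ 2 * w ^ 0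
      + ((4389041082354 / 17347225) + (453061600000 / 693889) * xl + (26043801600 / 40817) * yu) * u ^ 1 * v ^ 3 * J ^ 0 * w ^ 2
      + ((2069217892292 / 17347225) + (175204800000 / 693889) * xl + (9092403200 / 40817) * yu) * u ^ 1 * v ^ 3 * J ^ 1 * w ^ 1
      + ((1778666990042 / 86736125) + (13640160000 / 693889) * xl + (195481600 / 40817) * yu) * u ^ 1 * v ^ 3 * J ^ 2 * w ^ 0
      + ((1562123851468 / 3469445) + (829160000000 / 693889) * xl + (810113062400 / 693889) * yu) * u ^ 2 * v ^ 2 * J ^ 0 * w ^ 2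
      + ((4278684122584 / 17347225) + (422569600000 / 693889) * xl + (384475724800 / 693889) * yu) * u ^ 2 * v ^ 2 * J ^ 1 * w ^ 1
      + ((329660089436 / 17347225) + (15118400000 / 693889) * xl + (3928537600 / 693889) * yl) * u ^ 2 * v ^ 2 * J ^ 2 * w ^ 0
      + ((245285018016 / 693889) + (671680000000 / 693889) * xl + (642515712000 / 693889) * yu) * u ^ 3 * v ^ 1 * J ^ 0 * w ^ 2
      + ((3849709317088 / 17347225) + (426611200000 / 693889) * xl + (368282624000 / 693889) * yu) * u ^ 3 * v ^ 1 * J ^ 1 * w ^ 1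
      + ((974871479168 / 86736125) + (25712640000 / 693889) * xl + (3451648000 / 693889) * yl) * u ^ 3 * v ^ 1 * J ^ 2 * w ^ 0
      + ((71541890720 / 693889) + (203200000000 / 693889) * xl + (185600000000 / 693889) * yu) * u ^ 4 * v ^ 0 * J ^ 0 * w ^ 2
      + ((252049895232 / 3469445) + (153984000000 / 693889) * xl + (118784000000 / 693889) * yu) * u ^ 4 * v ^ 0 * J ^ 1 * w ^ 1
      + ((326562575904 / 86736125) + (15889920000 / 693889) * xl + (1710080000 / 693889) * yl) * u ^ 4 * v ^ 0 * J ^ 2 * w ^ 0 := by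
    simp only [hxl, hxu, hyl, hyu, hu, hv, hw]
    unfold PTb2C1
    ring
  rw [key]
  positivity

noncomputable def PTb2C2 (L h a J : ℝ) : ℝ :=
  ((-41756 / 625) + (416) * L + (-40768 / 625) * h) * a ^ 0 * J ^ 0
    + ((0) + (416) * L + (-416) * h) * a ^ 0 * J ^ 1
    + ((0) + (3072) * L + (-3072) * h) * a ^ 0 * J ^ 2
    + ((0) + (0) * L + (208) * h) * a ^ 1 * J ^ 0
    + ((0) + (-5728) * L + (5728) * h) * a ^ 1 * J ^ 1
    + ((0) + (-1152) * L + (1152) * h) * a ^ 1 * J ^ 2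
    + ((192076 / 625) + (2240) * L + (-2088272 / 625) * h) * a ^ 2 * J ^ 0
    + ((-53064 / 125) + (368) * L + (67808 / 125) * h) * a ^ 4 * J ^ 0

lemma PTb2C2_nonneg {L h a J : ℝ} (hL0 : 6931471 / 10000000 ≤ L) (hL1 : L ≤ 6931472 / 10000000)
    (hh0 : 233 / 1000 ≤ h) (hh1 : h ≤ 326 / 1000) (ha0 : 13 / 20 ≤ a) (ha1 : a ≤ 1)
    (hJ0 : 0 ≤ J) (hJ1 : J ≤ 17 / 25) : 0 ≤ PTb2C2 L h a J := by
  obtain ⟨xl, hxl⟩ : ∃ x : ℝ, x = L - 6931471 / 10000000 := ⟨_, rfl⟩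
  obtain ⟨xu, hxu⟩ : ∃ x : ℝ, x = 6931472 / 10000000 - L := ⟨_, rfl⟩
  obtain ⟨yl, hyl⟩ : ∃ x : ℝ, x = h - 233 / 1000 := ⟨_, rfl⟩
  obtain ⟨yu, hyu⟩ : ∃ x : ℝ, x = 326 / 1000 - h := ⟨_, rfl⟩
  obtain ⟨u, hu⟩ : ∃ x : ℝ, x = a - 13 / 20 := ⟨_, rfl⟩
  obtain ⟨v, hv⟩ : ∃ x : ℝ, x = 1 - a := ⟨_, rfl⟩
  obtain ⟨w, hw⟩ : ∃ x : ℝ, x = 17 / 25 - J := ⟨_, rfl⟩
  have hxl0 : 0 ≤ xl := by rw [hxl]; linarith
  have hxu0 : 0 ≤ xu := by rw [hxu]; linarith
  have hyl0 : 0 ≤ yl := by rw [hyl]; linarith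
  have hyu0 : 0 ≤ yu := by rw [hyu]; linarith
  have hu0 : 0 ≤ u := by rw [hu]; linarith
  have hv0 : 0 ≤ v := by rw [hv]; linarith
  have hw0 : 0 ≤ w := by rw [hw]; linarith
  have key : PTb2C2 L h a J =
      ((57130558960553 / 693889000) + (2914470000 / 14161) * xl + (124486745760 / 693889) * yu) * u ^ 0 * v ^ 4 * J ^ 0 * w ^ 2
      + ((15846776730473 / 346944500) + (60728460000 / 693889) * xl + (24083891520 / 693889) * yu) * u ^ 0 * v ^ 4 * J ^ 1 * w ^ 1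
      + ((70018432698829 / 3469445000) + (25344198000 / 693889) * xl + (7021913760 / 693889) * yu) * u ^ 0 * v ^ 4 * J ^ 2 * w ^ 0
      + ((6656213303402 / 17347225) + (98186400000 / 99127) * xl + (621836800000 / 693889) * yu) * u ^ 1 * v ^ 3 * J ^ 0 * w ^ 2
      + ((3804374100452 / 17347225) + (338724800000 / 693889) * xl + (207788800000 / 693889) * yu) * u ^ 1 * v ^ 3 * J ^ 1 * w ^ 1
      + ((22853613704874 / 433680625) + (62475104000 / 693889) * xl + (2992896000 / 693889) * yl) * u ^ 1 * v ^ 3 * J ^ 2 * w ^ 0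
      + ((2328168777268 / 3469445) + (177704000000 / 99127) * xl + (1142674515200 / 693889) * yu) * u ^ 2 * v ^ 2 * J ^ 0 * w ^ 2
      + ((7142664922648 / 17347225) + (729539200000 / 693889) * xl + (527032230400 / 693889) * yu) * u ^ 2 * v ^ 2 * J ^ 1 * w ^ 1
      + ((21042736451924 / 433680625) + (74227904000 / 693889) * xl + (27025580800 / 693889) * yl) * u ^ 2 * v ^ 2 * J ^ 2 * w ^ 0
      + ((361126746592 / 693889) + (143040000000 / 99127) * xl + (911738496000 / 693889) * yu) * u ^ 3 * v ^ 1 * J ^ 0 * w ^ 2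
      + ((6045692702576 / 17347225) + (694022400000 / 693889) * xl + (514939392000 / 693889) * yu) * u ^ 3 * v ^ 1 * J ^ 1 * w ^ 1
      + ((9866577043408 / 433680625) + (66509568000 / 693889) * xl + (23031936000 / 693889) * yl) * u ^ 3 * v ^ 1 * J ^ 2 * w ^ 0
      + ((104622083040 / 693889) + (43200000000 / 99127) * xl + (265600000000 / 693889) * yu) * u ^ 4 * v ^ 0 * J ^ 0 * w ^ 2
      + ((383123796032 / 3469445) + (243584000000 / 693889) * xl + (169984000000 / 693889) * yu) * u ^ 4 * v ^ 0 * J ^ 1 * w ^ 1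
      + ((99065395552 / 17347225) + (29964800000 / 693889) * xl + (6835200000 / 693889) * yl) * u ^ 4 * v ^ 0 * J ^ 2 * w ^ 0 := by
    simp only [hxl, hxu, hyl, hyu, hu, hv, hw]
    unfold PTb2C2
    ring
  rw [key]
  positivity

noncomputable def PTb2C3 (L h a J : ℝ) : ℝ :=
  ((-38544 / 625) + (384) * L + (-37632 / 625) * h) * a ^ 0 * J ^ 0
    + ((0) + (384) * L + (-384) * h) * a ^ 0 * J ^ 1
    + ((0) + (2048) * L + (-2048) * h) * a ^ 0 * J ^ 2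
    + ((0) + (0) * L + (192) * h) * a ^ 1 * J ^ 0
    + ((0) + (-3712) * L + (3712) * h) * a ^ 1 * J ^ 1
    + ((0) + (-896) * L + (896) * h) * a ^ 1 * J ^ 2
    + ((105424 / 625) + (1280) * L + (-1281728 / 625) * h) * a ^ 2 * J ^ 0
    + ((-33376 / 125) + (320) * L + (31872 / 125) * h) * a ^ 4 * J ^ 0

lemma PTb2C3_nonneg {L h a J : ℝ} (hL0 : 6931471 / 10000000 ≤ L) (hL1 : L ≤ 6931472 / 10000000)
    (hh0 : 233 / 1000 ≤ h) (hh1 : h ≤ 326 / 1000) (ha0 : 13 / 20 ≤ a) (ha1 : a ≤ 1)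
    (hJ0 : 0 ≤ J) (hJ1 : J ≤ 17 / 25) : 0 ≤ PTb2C3 L h a J := by
  obtain ⟨xl, hxl⟩ : ∃ x : ℝ, x = L - 6931471 / 10000000 := ⟨_, rfl⟩
  obtain ⟨xu, hxu⟩ : ∃ x : ℝ, x = 6931472 / 10000000 - L := ⟨_, rfl⟩
  obtain ⟨yl, hyl⟩ : ∃ x : ℝ, x = h - 233 / 1000 := ⟨_, rfl⟩
  obtain ⟨yu, hyu⟩ : ∃ x : ℝ, x = 326 / 1000 - h := ⟨_, rfl⟩
  obtain ⟨u, hu⟩ : ∃ x : ℝ, x = a - 13 / 20 := ⟨_, rfl⟩
  obtain ⟨v, hv⟩ : ∃ x : ℝ, x = 1 - a := ⟨_, rfl⟩
  obtain ⟨w, hw⟩ : ∃ x : ℝ, x = 17 / 25 - J := ⟨_, rfl⟩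
  have hxl0 : 0 ≤ xl := by rw [hxl]; linarith
  have hxu0 : 0 ≤ xu := by rw [hxu]; linarith
  have hyl0 : 0 ≤ yl := by rw [hyl]; linarith
  have hyu0 : 0 ≤ yu := by rw [hyu]; linarith
  have hu0 : 0 ≤ u := by rw [hu]; linarith
  have hv0 : 0 ≤ v := by rw [hv]; linarith
  have hw0 : 0 ≤ w := by rw [hw]; linarith
  have key : PTb2C3 L h a J =
      ((1979908504639 / 34694450) + (98192200000 / 693889) * xl + (75634451840 / 693889) * yu) * u ^ 0 * v ^ 4 * J ^ 0 * w ^ 2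
      + ((713632842623 / 17347225) + (58426000000 / 693889) * xl + (13310503680 / 693889) * yu) * u ^ 0 * v ^ 4 * J ^ 1 * w ^ 1
      + ((17285577163303 / 867361250) + (28003144000 / 693889) * xl + (5445395840 / 693889) * yu) * u ^ 0 * v ^ 4 * J ^ 2 * w ^ 0
      + ((898330687896 / 3469445) + (463312000000 / 693889) * xl + (379324416000 / 693889) * yu) * u ^ 1 * v ^ 3 * J ^ 0 * w ^ 2
      + ((3107308459952 / 17347225) + (286444800000 / 693889) * xl + (118469632000 / 693889) * yu) * u ^ 1 * v ^ 3 * J ^ 1 * w ^ 1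
      + ((24018527394872 / 433680625) + (79709312000 / 693889) * xl + (4278272000 / 693889) * yl) * u ^ 1 * v ^ 3 * J ^ 2 * w ^ 0
      + ((1536660584176 / 3469445) + (826400000000 / 693889) * xl + (701370444800 / 693889) * yu) * u ^ 2 * v ^ 2 * J ^ 0 * w ^ 2
      + ((5336264556832 / 17347225) + (560012800000 / 693889) * xl + (309953689600 / 693889) * yu) * u ^ 2 * v ^ 2 * J ^ 1 * w ^ 1
      + ((23001448947632 / 433680625) + (96726272000 / 693889) * xl + (28303283200 / 693889) * yl) * u ^ 2 * v ^ 2 * J ^ 2 * w ^ 0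
      + ((234481228416 / 693889) + (659200000000 / 693889) * xl + (33203712000 / 40817) * yu) * u ^ 3 * v ^ 1 * J ^ 0 * w ^ 2
      + ((4226271459904 / 17347225) + (501529600000 / 693889) * xl + (18356224000 / 40817) * yu) * u ^ 3 * v ^ 1 * J ^ 1 * w ^ 1
      + ((9883517714304 / 433680625) + (69904384000 / 693889) * xl + (1460736000 / 40817) * yl) * u ^ 3 * v ^ 1 * J ^ 2 * w ^ 0
      + ((67273984640 / 693889) + (198400000000 / 693889) * xl + (166400000000 / 693889) * yu) * u ^ 4 * v ^ 0 * J ^ 0 * w ^ 2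
      + ((257305559808 / 3469445) + (170496000000 / 693889) * xl + (106496000000 / 693889) * yu) * u ^ 4 * v ^ 0 * J ^ 1 * w ^ 1
      + ((390923989376 / 86736125) + (25364480000 / 693889) * xl + (6635520000 / 693889) * yl) * u ^ 4 * v ^ 0 * J ^ 2 * w ^ 0 := by
    simp only [hxl, hxu, hyl, hyu, hu, hv, hw]
    unfold PTb2C3
    ring
  rw [key]
  positivity

noncomputable def PTb2C4 (L h a J : ℝ) : ℝ :=
  ((-12848 / 625) + (128) * L + (-12544 / 625) * h) * a ^ 0 * J ^ 0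
    + ((0) + (128) * L + (-128) * h) * a ^ 0 * J ^ 1
    + ((0) + (512) * L + (-512) * h) * a ^ 0 * J ^ 2
    + ((0) + (0) * L + (64) * h) * a ^ 1 * J ^ 0
    + ((0) + (-896) * L + (896) * h) * a ^ 1 * J ^ 1
    + ((0) + (-256) * L + (256) * h) * a ^ 1 * J ^ 2
    + ((19568 / 625) + (256) * L + (-287296 / 625) * h) * a ^ 2 * J ^ 0
    + ((-7344 / 125) + (96) * L + (3968 / 125) * h) * a ^ 4 * J ^ 0

lemma PTb2C4_nonneg {L h a J : ℝ} (hL0 : 6931471 / 10000000 ≤ L) (hL1 : L ≤ 6931472 / 10000000)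
    (hh0 : 233 / 1000 ≤ h) (hh1 : h ≤ 326 / 1000) (ha0 : 13 / 20 ≤ a) (ha1 : a ≤ 1)
    (hJ0 : 0 ≤ J) (hJ1 : J ≤ 17 / 25) : 0 ≤ PTb2C4 L h a J := by
  obtain ⟨xl, hxl⟩ : ∃ x : ℝ, x = L - 6931471 / 10000000 := ⟨_, rfl⟩
  obtain ⟨xu, hxu⟩ : ∃ x : ℝ, x = 6931472 / 10000000 - L := ⟨_, rfl⟩
  obtain ⟨yl, hyl⟩ : ∃ x : ℝ, x = h - 233 / 1000 := ⟨_, rfl⟩
  obtain ⟨yu, hyu⟩ : ∃ x : ℝ, x = 326 / 1000 - h := ⟨_, rfl⟩
  obtain ⟨u, hu⟩ : ∃ x : ℝ, x = a - 13 / 20 := ⟨_, rfl⟩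
  obtain ⟨v, hv⟩ : ∃ x : ℝ, x = 1 - a := ⟨_, rfl⟩
  obtain ⟨w, hw⟩ : ∃ x : ℝ, x = 17 / 25 - J := ⟨_, rfl⟩
  have hxl0 : 0 ≤ xl := by rw [hxl]; linarith
  have hxu0 : 0 ≤ xu := by rw [hxu]; linarith
  have hyl0 : 0 ≤ yl := by rw [hyl]; linarith
  have hyu0 : 0 ≤ yu := by rw [hyu]; linarith
  have hu0 : 0 ≤ u := by rw [hu]; linarith
  have hv0 : 0 ≤ v := by rw [hv]; linarith
  have hw0 : 0 ≤ w := by rw [hw]; linarith
  have key : PTb2C4 L h a J =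
      ((5165407930813 / 346944500) + (1489980000 / 40817) * xl + (16701599360 / 693889) * yu) * u ^ 0 * v ^ 4 * J ^ 0 * w ^ 2
      + ((2329270012733 / 173472250) + (1162360000 / 40817) * xl + (2503998720 / 693889) * yu) * u ^ 0 * v ^ 4 * J ^ 1 * w ^ 1
      + ((1733383776903 / 247817500) + (612412000 / 40817) * xl + (1782943360 / 693889) * yu) * u ^ 0 * v ^ 4 * J ^ 2 * w ^ 0
      + ((1135771977604 / 17347225) + (116657600000 / 693889) * xl + (84261068800 / 693889) * yu) * u ^ 1 * v ^ 3 * J ^ 0 * w ^ 2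
      + ((941355326024 / 17347225) + (88393600000 / 693889) * xl + (23600537600 / 693889) * yu) * u ^ 1 * v ^ 3 * J ^ 1 * w ^ 1
      + ((8805669472932 / 433680625) + (31515072000 / 693889) * xl + (881459200 / 693889) * yl) * u ^ 1 * v ^ 3 * J ^ 2 * w ^ 0
      + ((377962756568 / 3469445) + (204112000000 / 693889) * xl + (157218841600 / 693889) * yu) * u ^ 2 * v ^ 2 * J ^ 0 * w ^ 2
      + ((1490744428976 / 17347225) + (158854400000 / 693889) * xl + (65068083200 / 693889) * yu) * u ^ 2 * v ^ 2 * J ^ 1 * w ^ 1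
      + ((8667687069112 / 433680625) + (38196352000 / 693889) * xl + (8696806400 / 693889) * yl) * u ^ 2 * v ^ 2 * J ^ 2 * w ^ 0
      + ((56417929536 / 693889) + (160640000000 / 693889) * xl + (128107008000 / 693889) * yu) * u ^ 3 * v ^ 1 * J ^ 0 * w ^ 2
      + ((1099240923712 / 17347225) + (133708800000 / 693889) * xl + (68642816000 / 693889) * yu) * u ^ 3 * v ^ 1 * J ^ 1 * w ^ 1
      + ((3572393497984 / 433680625) + (24561664000 / 693889) * xl + (7971328000 / 693889) * yl) * u ^ 3 * v ^ 1 * J ^ 2 * w ^ 0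
      + ((15952660800 / 693889) + (48000000000 / 693889) * xl + (38400000000 / 693889) * yu) * u ^ 4 * v ^ 0 * J ^ 0 * w ^ 2
      + ((63657157248 / 3469445) + (43776000000 / 693889) * xl + (24576000000 / 693889) * yu) * u ^ 4 * v ^ 0 * J ^ 1 * w ^ 1
      + ((6912517184 / 5102125) + (7613440000 / 693889) * xl + (1986560000 / 693889) * yl) * u ^ 4 * v ^ 0 * J ^ 2 * w ^ 0 := by
    simp only [hxl, hxu, hyl, hyu, hu, hv, hw]
    unfold PTb2C4
    ring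
  rw [key]
  positivity

end Vale.Agent.Lib.P322.Pot
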