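import Mathlib

/-!
P322, potential method: explicit Bernstein certificates for `PT_box3` (box `13/20 ≤ a ≤ 1`, `1/2 ≤ d ≤ 1`, `0 ≤ J ≤ 17/25`).
Generated in exact arithmetic.  `C v j` is the coefficient of `(d - d0)^j (d1 - d)^(4-j)` at the vertex number `v` of the `(L, h)` rectangle.
-/

namespace Vale.Agent.Lib.P322.Pot.Box3

noncomputable def C00 (a J : ℝ) : ℝ :=
  (4960127 / 1250000) + (4601471 / 1250000) * J + (4601471 / 312500) * J ^ 2 + (233 / 250) * a - (32210297 / 1250000) * a * J - (4601471 / 625000) * a * J ^ 2 + (3970723 / 625000) * a ^ 2 + (4745773 / 5000000) * a ^ 4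

lemma C00_nonneg {a J : ℝ} (ha0 : 13 / 20 ≤ a) (ha1 : a ≤ 1) (hJ0 : 0 ≤ J) (hJ1 : J ≤ 17 / 25) :
    0 ≤ C00 a J := by
  have hx : 0 ≤ a - 13 / 20 := by linarith
  have hy : 0 ≤ 1 - a := by linarith
  have hv : 0 ≤ 17 / 25 - J := by linarith
  have e : C00 a J =
      (5942032301053 / 5551112000) * (1 - a) ^ 4 * (17 / 25 - J) ^ 2
      + (2387487982973 / 2775556000) * (1 - a) ^ 4 * J * (17 / 25 - J)
      + (12548220769521 / 27755560000) * (1 - a) ^ 4 * J ^ 2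
      + (332919740641 / 69388900) * (a - 13 / 20) * (1 - a) ^ 3 * (17 / 25 - J) ^ 2
      + (124528321993 / 34694450) * (a - 13 / 20) * (1 - a) ^ 3 * J * (17 / 25 - J)
      + (2201417368233 / 1734722500) * (a - 13 / 20) * (1 - a) ^ 3 * J ^ 2
      + (56383689739 / 6938890) * (a - 13 / 20) ^ 2 * (1 - a) ^ 2 * (17 / 25 - J) ^ 2
      + (102626732651 / 17347225) * (a - 13 / 20) ^ 2 * (1 - a) ^ 2 * J * (17 / 25 - J)
      + (1083460883639 / 867361250) * (a - 13 / 20) ^ 2 * (1 - a) ^ 2 * J ^ 2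
      + (4270742580 / 693889) * (a - 13 / 20) ^ 3 * (1 - a) * (17 / 25 - J) ^ 2
      + (78677216932 / 17347225) * (a - 13 / 20) ^ 3 * (1 - a) * J * (17 / 25 - J)
      + (223274593624 / 433680625) * (a - 13 / 20) ^ 3 * (1 - a) * J ^ 2
      + (71778900 / 40817) * (a - 13 / 20) ^ 4 * (17 / 25 - J) ^ 2
      + (276047784 / 204085) * (a - 13 / 20) ^ 4 * J * (17 / 25 - J)
      + (432032324 / 5102125) * (a - 13 / 20) ^ 4 * J ^ 2 := by
    unfold C00
    ring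
  rw [e]
  positivity

noncomputable def C01 (a J : ℝ) : ℝ :=
  (14880381 / 625000) + (13804413 / 625000) * J + (4601471 / 78125) * J ^ 2 + (699 / 125) * a - (59819123 / 625000) * a * J - (4601471 / 125000) * a * J ^ 2 + (1243147 / 312500) * a ^ 2 + (3004311 / 312500) * a ^ 4

lemma C01_nonneg {a J : ℝ} (ha0 : 13 / 20 ≤ a) (ha1 : a ≤ 1) (hJ0 : 0 ≤ J) (hJ1 : J ≤ 17 / 25) :
    0 ≤ C01 a J := by
  have hx : 0 ≤ a - 13 / 20 := by linarith
  have hy : 0 ≤ 1 - a := by linarith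
  have hv : 0 ≤ 17 / 25 - J := by linarith
  have e : C01 a J =
      (1542013343671 / 346944500) * (1 - a) ^ 4 * (17 / 25 - J) ^ 2
      + (859891282631 / 173472250) * (1 - a) ^ 4 * J * (17 / 25 - J)
      + (986302893943 / 346944500) * (1 - a) ^ 4 * J ^ 2
      + (327061383588 / 17347225) * (a - 13 / 20) * (1 - a) ^ 3 * (17 / 25 - J) ^ 2
      + (324326137664 / 17347225) * (a - 13 / 20) * (1 - a) ^ 3 * J * (17 / 25 - J)
      + (720387236068 / 86736125) * (a - 13 / 20) * (1 - a) ^ 3 * J ^ 2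
      + (105452408308 / 3469445) * (a - 13 / 20) ^ 2 * (1 - a) ^ 2 * (17 / 25 - J) ^ 2
      + (474407431168 / 17347225) * (a - 13 / 20) ^ 2 * (1 - a) ^ 2 * J * (17 / 25 - J)
      + (725116836676 / 86736125) * (a - 13 / 20) ^ 2 * (1 - a) ^ 2 * J ^ 2
      + (15376873824 / 693889) * (a - 13 / 20) ^ 3 * (1 - a) * (17 / 25 - J) ^ 2
      + (325151451496 / 17347225) * (a - 13 / 20) ^ 3 * (1 - a) * J * (17 / 25 - J)
      + (57754216368 / 17347225) * (a - 13 / 20) ^ 3 * (1 - a) * J ^ 2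
      + (4299247520 / 693889) * (a - 13 / 20) ^ 4 * (17 / 25 - J) ^ 2
      + (3592094592 / 693889) * (a - 13 / 20) ^ 4 * J * (17 / 25 - J)
      + (39269095424 / 86736125) * (a - 13 / 20) ^ 4 * J ^ 2 := by
    unfold C01
    ring
  rw [e]
  positivity

noncomputable def C02 (a J : ℝ) : ℝ :=
  (64481651 / 1250000) + (59819123 / 1250000) * J + (13804413 / 156250) * J ^ 2 + (3029 / 250) * a - (32210297 / 250000) * a * J - (41413239 / 625000) * a * J ^ 2 - (4612751 / 125000) * a ^ 2 + (30637337 / 1250000) * a ^ 4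

lemma C02_nonneg {a J : ℝ} (ha0 : 13 / 20 ≤ a) (ha1 : a ≤ 1) (hJ0 : 0 ≤ J) (hJ1 : J ≤ 17 / 25) :
    0 ≤ C02 a J := by
  have hx : 0 ≤ a - 13 / 20 := by linarith
  have hy : 0 ≤ 1 - a := by linarith
  have hv : 0 ≤ 17 / 25 - J := by linarith
  have e : C02 a J =
      (1378422495151 / 198254000) * (1 - a) ^ 4 * (17 / 25 - J) ^ 2
      + (1029762463951 / 99127000) * (1 - a) ^ 4 * J * (17 / 25 - J)
      + (6396478831403 / 991270000) * (1 - a) ^ 4 * J ^ 2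
      + (67804559927 / 2478175) * (a - 13 / 20) * (1 - a) ^ 3 * (17 / 25 - J) ^ 2
      + (89791615754 / 2478175) * (a - 13 / 20) * (1 - a) ^ 3 * J * (17 / 25 - J)
      + (1201670654019 / 61954375) * (a - 13 / 20) * (1 - a) ^ 3 * J ^ 2
      + (58971328 / 1445) * (a - 13 / 20) ^ 2 * (1 - a) ^ 2 * (17 / 25 - J) ^ 2
      + (23423629484 / 495635) * (a - 13 / 20) ^ 2 * (1 - a) ^ 2 * J * (17 / 25 - J)
      + (25182209636 / 1264375) * (a - 13 / 20) ^ 2 * (1 - a) ^ 2 * J ^ 2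
      + (2750195968 / 99127) * (a - 13 / 20) ^ 3 * (1 - a) * (17 / 25 - J) ^ 2
      + (13957858468 / 495635) * (a - 13 / 20) ^ 3 * (1 - a) * J * (17 / 25 - J)
      + (486359269708 / 61954375) * (a - 13 / 20) ^ 3 * (1 - a) * J ^ 2
      + (43116960 / 5831) * (a - 13 / 20) ^ 4 * (17 / 25 - J) ^ 2
      + (28540192 / 4165) * (a - 13 / 20) ^ 4 * J * (17 / 25 - J)
      + (677713696 / 728875) * (a - 13 / 20) ^ 4 * J ^ 2 := by
    unfold C02
    ring
  rw [e]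
  positivity

noncomputable def C03 (a J : ℝ) : ℝ :=
  (14880381 / 312500) + (13804413 / 312500) * J + (4601471 / 78125) * J ^ 2 + (1398 / 125) * a - (4601471 / 62500) * a * J - (32210297 / 625000) * a * J ^ 2 - (75407 / 1250) * a ^ 2 + (7009311 / 312500) * a ^ 4

lemma C03_nonneg {a J : ℝ} (ha0 : 13 / 20 ≤ a) (ha1 : a ≤ 1) (hJ0 : 0 ≤ J) (hJ1 : J ≤ 17 / 25) :
    0 ≤ C03 a J := by
  have hx : 0 ≤ a - 13 / 20 := by linarith
  have hy : 0 ≤ 1 - a := by linarith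
  have hv : 0 ≤ 17 / 25 - J := by linarith
  have e : C03 a J =
      (1670155591471 / 346944500) * (1 - a) ^ 4 * (17 / 25 - J) ^ 2
      + (1607575585871 / 173472250) * (1 - a) ^ 4 * J * (17 / 25 - J)
      + (10661231764107 / 1734722500) * (1 - a) ^ 4 * J ^ 2
      + (296755987068 / 17347225) * (a - 13 / 20) * (1 - a) ^ 3 * (17 / 25 - J) ^ 2
      + (524673967976 / 17347225) * (a - 13 / 20) * (1 - a) ^ 3 * J * (17 / 25 - J)
      + (8112911938804 / 433680625) * (a - 13 / 20) * (1 - a) ^ 3 * J ^ 2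
      + (77631960016 / 3469445) * (a - 13 / 20) ^ 2 * (1 - a) ^ 2 * (17 / 25 - J) ^ 2
      + (121470717008 / 3469445) * (a - 13 / 20) ^ 2 * (1 - a) ^ 2 * J * (17 / 25 - J)
      + (8320351078184 / 433680625) * (a - 13 / 20) ^ 2 * (1 - a) ^ 2 * J ^ 2
      + (9053346432 / 693889) * (a - 13 / 20) ^ 3 * (1 - a) * (17 / 25 - J) ^ 2
      + (11848692304 / 693889) * (a - 13 / 20) ^ 3 * (1 - a) * J * (17 / 25 - J)
      + (3119470692808 / 433680625) * (a - 13 / 20) ^ 3 * (1 - a) * J ^ 2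
      + (2090541440 / 693889) * (a - 13 / 20) ^ 4 * (17 / 25 - J) ^ 2
      + (10892613504 / 3469445) * (a - 13 / 20) ^ 4 * J * (17 / 25 - J)
      + (53552061408 / 86736125) * (a - 13 / 20) ^ 4 * J ^ 2 := by
    unfold C03
    ring
  rw [e]
  positivity

noncomputable def C04 (a J : ℝ) : ℝ :=
  (4960127 / 312500) + (4601471 / 312500) * J + (4601471 / 312500) * J ^ 2 + (466 / 125) * a - (4601471 / 312500) * a * J - (4601471 / 312500) * a * J ^ 2 - (8062087 / 312500) * a ^ 2 + (96848 / 15625) * a ^ 4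

lemma C04_nonneg {a J : ℝ} (ha0 : 13 / 20 ≤ a) (ha1 : a ≤ 1) (hJ0 : 0 ≤ J) (hJ1 : J ≤ 17 / 25) :
    0 ≤ C04 a J := by
  have hx : 0 ≤ a - 13 / 20 := by linarith
  have hy : 0 ≤ 1 - a := by linarith
  have hv : 0 ≤ 17 / 25 - J := by linarith
  have e : C04 a J =
      (3036462524 / 2478175) * (1 - a) ^ 4 * (17 / 25 - J) ^ 2
      + (1464905032 / 495635) * (1 - a) ^ 4 * J * (17 / 25 - J)
      + (128478767804 / 61954375) * (1 - a) ^ 4 * J ^ 2
      + (109066648 / 29155) * (a - 13 / 20) * (1 - a) ^ 3 * (17 / 25 - J) ^ 2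
      + (1311537088 / 145775) * (a - 13 / 20) * (1 - a) ^ 3 * J * (17 / 25 - J)
      + (22909896536 / 3644375) * (a - 13 / 20) * (1 - a) ^ 3 * J ^ 2
      + (1830391004 / 495635) * (a - 13 / 20) ^ 2 * (1 - a) ^ 2 * (17 / 25 - J) ^ 2
      + (22058710376 / 2478175) * (a - 13 / 20) ^ 2 * (1 - a) ^ 2 * J * (17 / 25 - J)
      + (386500489612 / 61954375) * (a - 13 / 20) ^ 2 * (1 - a) ^ 2 * J ^ 2
      + (115381344 / 99127) * (a - 13 / 20) ^ 3 * (1 - a) * (17 / 25 - J) ^ 2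
      + (7020667312 / 2478175) * (a - 13 / 20) ^ 3 * (1 - a) * J * (17 / 25 - J)
      + (124680544704 / 61954375) * (a - 13 / 20) ^ 3 * (1 - a) * J ^ 2 := by
    unfold C04
    ring
  rw [e]
  positivity

noncomputable def V0 (a d J : ℝ) : ℝ :=
  C00 a J * (1 - d) ^ 4
    + C01 a J * (d - (1 / 2)) * (1 - d) ^ 3
    + C02 a J * (d - (1 / 2)) ^ 2 * (1 - d) ^ 2
    + C03 a J * (d - (1 / 2)) ^ 3 * (1 - d)
    + C04 a J * (d - (1 / 2)) ^ 4

lemma V0_nonneg {a d J : ℝ} (ha0 : 13 / 20 ≤ a) (ha1 : a ≤ 1) (hd0 : 1 / 2 ≤ d) (hd1 : d ≤ 1)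
    (hJ0 : 0 ≤ J) (hJ1 : J ≤ 17 / 25) : 0 ≤ V0 a d J := by
  have hx : 0 ≤ d - (1 / 2) := by linarith
  have hy : 0 ≤ 1 - d := by linarith
  have h0 := C00_nonneg ha0 ha1 hJ0 hJ1
  have h1 := C01_nonneg ha0 ha1 hJ0 hJ1
  have h2 := C02_nonneg ha0 ha1 hJ0 hJ1
  have h3 := C03_nonneg ha0 ha1 hJ0 hJ1
  have h4 := C04_nonneg ha0 ha1 hJ0 hJ1
  unfold V0
  positivity

noncomputable def C10 (a J : ℝ) : ℝ :=
  (310008 / 78125) + (287592 / 78125) * J + (1150368 / 78125) * J ^ 2 + (233 / 250) * a - (2013144 / 78125) * a * J - (575184 / 78125) * a * J ^ 2 + (992681 / 156250) * a ^ 2 + (296611 / 312500) * a ^ 4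

lemma C10_nonneg {a J : ℝ} (ha0 : 13 / 20 ≤ a) (ha1 : a ≤ 1) (hJ0 : 0 ≤ J) (hJ1 : J ≤ 17 / 25) :
    0 ≤ C10 a J := by
  have hx : 0 ≤ a - 13 / 20 := by linarith
  have hy : 0 ≤ 1 - a := by linarith
  have hv : 0 ≤ 17 / 25 - J := by linarith
  have e : C10 a J =
      (371377097971 / 346944500) * (1 - a) ^ 4 * (17 / 25 - J) ^ 2
      + (149218029811 / 173472250) * (1 - a) ^ 4 * J * (17 / 25 - J)
      + (112037708681 / 247817500) * (1 - a) ^ 4 * J ^ 2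
      + (83229953388 / 17347225) * (a - 13 / 20) * (1 - a) ^ 3 * (17 / 25 - J) ^ 2
      + (62264174808 / 17347225) * (a - 13 / 20) * (1 - a) ^ 3 * J * (17 / 25 - J)
      + (78622066452 / 61954375) * (a - 13 / 20) * (1 - a) ^ 3 * J ^ 2
      + (28191851248 / 3469445) * (a - 13 / 20) ^ 2 * (1 - a) ^ 2 * (17 / 25 - J) ^ 2
      + (102626757472 / 17347225) * (a - 13 / 20) ^ 2 * (1 - a) ^ 2 * J * (17 / 25 - J)
      + (77390084432 / 61954375) * (a - 13 / 20) ^ 2 * (1 - a) ^ 2 * J ^ 2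
      + (4270743584 / 693889) * (a - 13 / 20) ^ 3 * (1 - a) * (17 / 25 - J) ^ 2
      + (78677237824 / 17347225) * (a - 13 / 20) ^ 3 * (1 - a) * J * (17 / 25 - J)
      + (31896384224 / 61954375) * (a - 13 / 20) ^ 3 * (1 - a) * J ^ 2
      + (1220241600 / 693889) * (a - 13 / 20) ^ 4 * (17 / 25 - J) ^ 2
      + (4692813696 / 3469445) * (a - 13 / 20) ^ 4 * J * (17 / 25 - J)
      + (1049222208 / 12390875) * (a - 13 / 20) ^ 4 * J ^ 2 := by
    unfold C10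
    ring
  rw [e]
  positivity

noncomputable def C11 (a J : ℝ) : ℝ :=
  (1860048 / 78125) + (1725552 / 78125) * J + (4601472 / 78125) * J ^ 2 + (699 / 125) * a - (7477392 / 78125) * a * J - (575184 / 15625) * a * J ^ 2 + (310787 / 78125) * a ^ 2 + (751078 / 78125) * a ^ 4

lemma C11_nonneg {a J : ℝ} (ha0 : 13 / 20 ≤ a) (ha1 : a ≤ 1) (hJ0 : 0 ≤ J) (hJ1 : J ≤ 17 / 25) :
    0 ≤ C11 a J := by
  have hx : 0 ≤ a - 13 / 20 := by linarith
  have hy : 0 ≤ 1 - a := by linarith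
  have hv : 0 ≤ 17 / 25 - J := by linarith
  have e : C11 a J =
      (385503419958 / 86736125) * (1 - a) ^ 4 * (17 / 25 - J) ^ 2
      + (429945735276 / 86736125) * (1 - a) ^ 4 * J * (17 / 25 - J)
      + (246575777334 / 86736125) * (1 - a) ^ 4 * J ^ 2
      + (327061457536 / 17347225) * (a - 13 / 20) * (1 - a) ^ 3 * (17 / 25 - J) ^ 2
      + (324326213888 / 17347225) * (a - 13 / 20) * (1 - a) ^ 3 * J * (17 / 25 - J)
      + (720387406976 / 86736125) * (a - 13 / 20) * (1 - a) ^ 3 * J ^ 2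
      + (21090486640 / 693889) * (a - 13 / 20) ^ 2 * (1 - a) ^ 2 * (17 / 25 - J) ^ 2
      + (474407554016 / 17347225) * (a - 13 / 20) ^ 2 * (1 - a) ^ 2 * J * (17 / 25 - J)
      + (725117043632 / 86736125) * (a - 13 / 20) ^ 2 * (1 - a) ^ 2 * J ^ 2
      + (15376877632 / 693889) * (a - 13 / 20) ^ 3 * (1 - a) * (17 / 25 - J) ^ 2
      + (325151545472 / 17347225) * (a - 13 / 20) ^ 3 * (1 - a) * J * (17 / 25 - J)
      + (57754240576 / 17347225) * (a - 13 / 20) ^ 3 * (1 - a) * J ^ 2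
      + (4299248640 / 693889) * (a - 13 / 20) ^ 4 * (17 / 25 - J) ^ 2
      + (3592095744 / 693889) * (a - 13 / 20) ^ 4 * J * (17 / 25 - J)
      + (39269127168 / 86736125) * (a - 13 / 20) ^ 4 * J ^ 2 := by
    unfold C11
    ring
  rw [e]
  positivity

noncomputable def C12 (a J : ℝ) : ℝ :=
  (4030104 / 78125) + (3738696 / 78125) * J + (6902208 / 78125) * J ^ 2 + (3029 / 250) * a - (2013144 / 15625) * a * J - (5176656 / 78125) * a * J ^ 2 - (5765939 / 156250) * a ^ 2 + (1914834 / 78125) * a ^ 4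

lemma C12_nonneg {a J : ℝ} (ha0 : 13 / 20 ≤ a) (ha1 : a ≤ 1) (hJ0 : 0 ≤ J) (hJ1 : J ≤ 17 / 25) :
    0 ≤ C12 a J := by
  have hx : 0 ≤ a - 13 / 20 := by linarith
  have hy : 0 ≤ 1 - a := by linarith
  have hv : 0 ≤ 17 / 25 - J := by linarith
  have e : C12 a J =
      (603059975674 / 86736125) * (1 - a) ^ 4 * (17 / 25 - J) ^ 2
      + (901042357748 / 86736125) * (1 - a) ^ 4 * J * (17 / 25 - J)
      + (2798460111842 / 433680625) * (1 - a) ^ 4 * J ^ 2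
      + (474632030288 / 17347225) * (a - 13 / 20) * (1 - a) ^ 3 * (17 / 25 - J) ^ 2
      + (628541462176 / 17347225) * (a - 13 / 20) * (1 - a) ^ 3 * J * (17 / 25 - J)
      + (8411696597456 / 433680625) * (a - 13 / 20) * (1 - a) ^ 3 * J ^ 2
      + (141590193608 / 3469445) * (a - 13 / 20) ^ 2 * (1 - a) ^ 2 * (17 / 25 - J) ^ 2
      + (32793090128 / 693889) * (a - 13 / 20) ^ 2 * (1 - a) ^ 2 * J * (17 / 25 - J)
      + (8637500320936 / 433680625) * (a - 13 / 20) ^ 2 * (1 - a) ^ 2 * J ^ 2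
      + (19251376864 / 693889) * (a - 13 / 20) ^ 3 * (1 - a) * (17 / 25 - J) ^ 2
      + (97705039552 / 3469445) * (a - 13 / 20) ^ 3 * (1 - a) * J * (17 / 25 - J)
      + (3404516192992 / 433680625) * (a - 13 / 20) ^ 3 * (1 - a) * J ^ 2
      + (5130919680 / 693889) * (a - 13 / 20) ^ 4 * (17 / 25 - J) ^ 2
      + (23773988352 / 3469445) * (a - 13 / 20) ^ 4 * J * (17 / 25 - J)
      + (80647987968 / 86736125) * (a - 13 / 20) ^ 4 * J ^ 2 := by
    unfold C12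
    ring
  rw [e]
  positivity

noncomputable def C13 (a J : ℝ) : ℝ :=
  (3720096 / 78125) + (3451104 / 78125) * J + (4601472 / 78125) * J ^ 2 + (1398 / 125) * a - (1150368 / 15625) * a * J - (4026288 / 78125) * a * J ^ 2 - (4712938 / 78125) * a ^ 2 + (1752328 / 78125) * a ^ 4

lemma C13_nonneg {a J : ℝ} (ha0 : 13 / 20 ≤ a) (ha1 : a ≤ 1) (hJ0 : 0 ≤ J) (hJ1 : J ≤ 17 / 25) :
    0 ≤ C13 a J := by
  have hx : 0 ≤ a - 13 / 20 := by linarith
  have hy : 0 ≤ 1 - a := by linarith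
  have hv : 0 ≤ 17 / 25 - J := by linarith
  have e : C13 a J =
      (417538991208 / 86736125) * (1 - a) ^ 4 * (17 / 25 - J) ^ 2
      + (803787972816 / 86736125) * (1 - a) ^ 4 * J * (17 / 25 - J)
      + (2665308533256 / 433680625) * (1 - a) ^ 4 * J ^ 2
      + (296756057536 / 17347225) * (a - 13 / 20) * (1 - a) ^ 3 * (17 / 25 - J) ^ 2
      + (524674093952 / 17347225) * (a - 13 / 20) * (1 - a) ^ 3 * J * (17 / 25 - J)
      + (8112913851328 / 433680625) * (a - 13 / 20) * (1 - a) ^ 3 * J ^ 2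
      + (15526396000 / 693889) * (a - 13 / 20) ^ 2 * (1 - a) ^ 2 * (17 / 25 - J) ^ 2
      + (121470749632 / 3469445) * (a - 13 / 20) ^ 2 * (1 - a) ^ 2 * J * (17 / 25 - J)
      + (8320353275488 / 433680625) * (a - 13 / 20) ^ 2 * (1 - a) ^ 2 * J ^ 2
      + (9053348992 / 693889) * (a - 13 / 20) ^ 3 * (1 - a) * (17 / 25 - J) ^ 2
      + (11848696064 / 693889) * (a - 13 / 20) ^ 3 * (1 - a) * J * (17 / 25 - J)
      + (3119471741056 / 433680625) * (a - 13 / 20) ^ 3 * (1 - a) * J ^ 2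
      + (2090542080 / 693889) * (a - 13 / 20) ^ 4 * (17 / 25 - J) ^ 2
      + (10892617728 / 3469445) * (a - 13 / 20) ^ 4 * J * (17 / 25 - J)
      + (53552096256 / 86736125) * (a - 13 / 20) ^ 4 * J ^ 2 := by
    unfold C13
    ring
  rw [e]
  positivity

noncomputable def C14 (a J : ℝ) : ℝ :=
  (1240032 / 78125) + (1150368 / 78125) * J + (1150368 / 78125) * J ^ 2 + (466 / 125) * a - (1150368 / 78125) * a * J - (1150368 / 78125) * a * J ^ 2 - (2015522 / 78125) * a ^ 2 + (96848 / 15625) * a ^ 4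

lemma C14_nonneg {a J : ℝ} (ha0 : 13 / 20 ≤ a) (ha1 : a ≤ 1) (hJ0 : 0 ≤ J) (hJ1 : J ≤ 17 / 25) :
    0 ≤ C14 a J := by
  have hx : 0 ≤ a - 13 / 20 := by linarith
  have hy : 0 ≤ 1 - a := by linarith
  have hv : 0 ≤ 17 / 25 - J := by linarith
  have e : C14 a J =
      (3036463184 / 2478175) * (1 - a) ^ 4 * (17 / 25 - J) ^ 2
      + (7324526752 / 2478175) * (1 - a) ^ 4 * J * (17 / 25 - J)
      + (128478795728 / 61954375) * (1 - a) ^ 4 * J ^ 2
      + (370826688 / 99127) * (a - 13 / 20) * (1 - a) ^ 3 * (17 / 25 - J) ^ 2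
      + (22296135552 / 2478175) * (a - 13 / 20) * (1 - a) ^ 3 * J * (17 / 25 - J)
      + (389468328384 / 61954375) * (a - 13 / 20) * (1 - a) ^ 3 * J ^ 2
      + (1830391456 / 495635) * (a - 13 / 20) ^ 2 * (1 - a) ^ 2 * (17 / 25 - J) ^ 2
      + (22058715712 / 2478175) * (a - 13 / 20) ^ 2 * (1 - a) ^ 2 * J * (17 / 25 - J)
      + (386500580384 / 61954375) * (a - 13 / 20) ^ 2 * (1 - a) ^ 2 * J ^ 2
      + (115381376 / 99127) * (a - 13 / 20) ^ 3 * (1 - a) * (17 / 25 - J) ^ 2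
      + (7020669184 / 2478175) * (a - 13 / 20) ^ 3 * (1 - a) * J * (17 / 25 - J)
      + (124680576128 / 61954375) * (a - 13 / 20) ^ 3 * (1 - a) * J ^ 2 := by
    unfold C14
    ring
  rw [e]
  positivity

noncomputable def V1 (a d J : ℝ) : ℝ :=
  C10 a J * (1 - d) ^ 4
    + C11 a J * (d - (1 / 2)) * (1 - d) ^ 3
    + C12 a J * (d - (1 / 2)) ^ 2 * (1 - d) ^ 2
    + C13 a J * (d - (1 / 2)) ^ 3 * (1 - d)
    + C14 a J * (d - (1 / 2)) ^ 4

lemma V1_nonneg {a d J : ℝ} (ha0 : 13 / 20 ≤ a) (ha1 : a ≤ 1) (hd0 : 1 / 2 ≤ d) (hd1 : d ≤ 1)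
    (hJ0 : 0 ≤ J) (hJ1 : J ≤ 17 / 25) : 0 ≤ V1 a d J := by
  have hx : 0 ≤ d - (1 / 2) := by linarith
  have hy : 0 ≤ 1 - d := by linarith
  have h0 := C10_nonneg ha0 ha1 hJ0 hJ1
  have h1 := C11_nonneg ha0 ha1 hJ0 hJ1
  have h2 := C12_nonneg ha0 ha1 hJ0 hJ1
  have h3 := C13_nonneg ha0 ha1 hJ0 hJ1
  have h4 := C14_nonneg ha0 ha1 hJ0 hJ1
  unfold V1
  positivity

noncomputable def C20 (a J : ℝ) : ℝ :=
  (4814303 / 1250000) + (3671471 / 1250000) * J + (3671471 / 312500) * J ^ 2 + (163 / 125) * a - (25700297 / 1250000) * a * J - (3671471 / 625000) * a * J ^ 2 + (460163 / 125000) * a ^ 2 + (5668333 / 5000000) * a ^ 4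

lemma C20_nonneg {a J : ℝ} (ha0 : 13 / 20 ≤ a) (ha1 : a ≤ 1) (hJ0 : 0 ≤ J) (hJ1 : J ≤ 17 / 25) :
    0 ≤ C20 a J := by
  have hx : 0 ≤ a - 13 / 20 := by linarith
  have hy : 0 ≤ 1 - a := by linarith
  have hv : 0 ≤ 17 / 25 - J := by linarith
  have e : C20 a J =
      (5165407930813 / 5551112000) * (1 - a) ^ 4 * (17 / 25 - J) ^ 2
      + (2329270012733 / 2775556000) * (1 - a) ^ 4 * J * (17 / 25 - J)
      + (1733383776903 / 3965080000) * (1 - a) ^ 4 * J ^ 2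
      + (283942994401 / 69388900) * (a - 13 / 20) * (1 - a) ^ 3 * (17 / 25 - J) ^ 2
      + (117669415753 / 34694450) * (a - 13 / 20) * (1 - a) ^ 3 * J * (17 / 25 - J)
      + (316318010319 / 247817500) * (a - 13 / 20) * (1 - a) ^ 3 * J ^ 2
      + (47245344571 / 6938890) * (a - 13 / 20) ^ 2 * (1 - a) ^ 2 * (17 / 25 - J) ^ 2
      + (93171526811 / 17347225) * (a - 13 / 20) ^ 2 * (1 - a) ^ 2 * J * (17 / 25 - J)
      + (163806945377 / 123908750) * (a - 13 / 20) ^ 2 * (1 - a) ^ 2 * J ^ 2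
      + (3526120596 / 693889) * (a - 13 / 20) ^ 3 * (1 - a) * (17 / 25 - J) ^ 2
      + (68702557732 / 17347225) * (a - 13 / 20) ^ 3 * (1 - a) * J * (17 / 25 - J)
      + (36033276232 / 61954375) * (a - 13 / 20) ^ 3 * (1 - a) * J ^ 2
      + (997041300 / 693889) * (a - 13 / 20) ^ 4 * (17 / 25 - J) ^ 2
      + (3978572328 / 3469445) * (a - 13 / 20) ^ 4 * J * (17 / 25 - J)
      + (179345092 / 1770125) * (a - 13 / 20) ^ 4 * J ^ 2 := by
    unfold C20
    ring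
  rw [e]
  positivity

noncomputable def C21 (a J : ℝ) : ℝ :=
  (14442909 / 625000) + (11014413 / 625000) * J + (3671471 / 78125) * J ^ 2 + (978 / 125) * a - (47729123 / 625000) * a * J - (3671471 / 125000) * a * J ^ 2 - (1326257 / 312500) * a ^ 2 + (2769951 / 312500) * a ^ 4

lemma C21_nonneg {a J : ℝ} (ha0 : 13 / 20 ≤ a) (ha1 : a ≤ 1) (hJ0 : 0 ≤ J) (hJ1 : J ≤ 17 / 25) :
    0 ≤ C21 a J := by
  have hx : 0 ≤ a - 13 / 20 := by linarith
  have hy : 0 ≤ 1 - a := by linarith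
  have hv : 0 ≤ 17 / 25 - J := by linarith
  have e : C21 a J =
      (1399170317311 / 346944500) * (1 - a) ^ 4 * (17 / 25 - J) ^ 2
      + (854911456271 / 173472250) * (1 - a) ^ 4 * J * (17 / 25 - J)
      + (955774107583 / 346944500) * (1 - a) ^ 4 * J ^ 2
      + (290372303268 / 17347225) * (a - 13 / 20) * (1 - a) ^ 3 * (17 / 25 - J) ^ 2
      + (317602937024 / 17347225) * (a - 13 / 20) * (1 - a) ^ 3 * J * (17 / 25 - J)
      + (721855594468 / 86736125) * (a - 13 / 20) * (1 - a) ^ 3 * J ^ 2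
      + (5375852612 / 204085) * (a - 13 / 20) ^ 2 * (1 - a) ^ 2 * (17 / 25 - J) ^ 2
      + (26530897184 / 1020425) * (a - 13 / 20) ^ 2 * (1 - a) ^ 2 * J * (17 / 25 - J)
      + (44694935828 / 5102125) * (a - 13 / 20) ^ 2 * (1 - a) ^ 2 * J ^ 2
      + (13003293600 / 693889) * (a - 13 / 20) ^ 3 * (1 - a) * (17 / 25 - J) ^ 2
      + (296146760296 / 17347225) * (a - 13 / 20) ^ 3 * (1 - a) * J * (17 / 25 - J)
      + (64437270768 / 17347225) * (a - 13 / 20) ^ 3 * (1 - a) * J ^ 2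
      + (3555247520 / 693889) * (a - 13 / 20) ^ 4 * (17 / 25 - J) ^ 2
      + (3115934592 / 693889) * (a - 13 / 20) ^ 4 * J * (17 / 25 - J)
      + (46947175424 / 86736125) * (a - 13 / 20) ^ 4 * J ^ 2 := by
    unfold C21
    ring
  rw [e]
  positivity

noncomputable def C22 (a J : ℝ) : ℝ :=
  (62585939 / 1250000) + (47729123 / 1250000) * J + (11014413 / 156250) * J ^ 2 + (2119 / 125) * a - (25700297 / 250000) * a * J - (33043239 / 625000) * a * J ^ 2 - (27690319 / 625000) * a ^ 2 + (25511177 / 1250000) * a ^ 4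

lemma C22_nonneg {a J : ℝ} (ha0 : 13 / 20 ≤ a) (ha1 : a ≤ 1) (hJ0 : 0 ≤ J) (hJ1 : J ≤ 17 / 25) :
    0 ≤ C22 a J := by
  have hx : 0 ≤ a - 13 / 20 := by linarith
  have hy : 0 ≤ 1 - a := by linarith
  have hv : 0 ≤ 17 / 25 - J := by linarith
  have e : C22 a J =
      (9202403837497 / 1387778000) * (1 - a) ^ 4 * (17 / 25 - J) ^ 2
      + (7255055619097 / 693889000) * (1 - a) ^ 4 * J * (17 / 25 - J)
      + (43243788797021 / 6938890000) * (1 - a) ^ 4 * J ^ 2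
      + (444173630849 / 17347225) * (a - 13 / 20) * (1 - a) ^ 3 * (17 / 25 - J) ^ 2
      + (632445732998 / 17347225) * (a - 13 / 20) * (1 - a) ^ 3 * J * (17 / 25 - J)
      + (8348343722133 / 433680625) * (a - 13 / 20) * (1 - a) ^ 3 * J ^ 2
      + (128923340536 / 3469445) * (a - 13 / 20) ^ 2 * (1 - a) ^ 2 * (17 / 25 - J) ^ 2
      + (162726210404 / 3469445) * (a - 13 / 20) ^ 2 * (1 - a) ^ 2 * J * (17 / 25 - J)
      + (8885512816148 / 433680625) * (a - 13 / 20) ^ 2 * (1 - a) ^ 2 * J ^ 2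
      + (16900816864 / 693889) * (a - 13 / 20) ^ 3 * (1 - a) * (17 / 25 - J) ^ 2
      + (93361180156 / 3469445) * (a - 13 / 20) ^ 3 * (1 - a) * J * (17 / 25 - J)
      + (3679134587956 / 433680625) * (a - 13 / 20) ^ 3 * (1 - a) * J ^ 2
      + (4312518240 / 693889) * (a - 13 / 20) ^ 4 * (17 / 25 - J) ^ 2
      + (21155099936 / 3469445) * (a - 13 / 20) ^ 4 * J * (17 / 25 - J)
      + (91674009824 / 86736125) * (a - 13 / 20) ^ 4 * J ^ 2 := by
    unfold C22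
    ring
  rw [e]
  positivity

noncomputable def C23 (a J : ℝ) : ℝ :=
  (14442909 / 312500) + (11014413 / 312500) * J + (3671471 / 78125) * J ^ 2 + (1956 / 125) * a - (3671471 / 62500) * a * J - (25700297 / 625000) * a * J ^ 2 - (9554959 / 156250) * a ^ 2 + (5379951 / 312500) * a ^ 4

lemma C23_nonneg {a J : ℝ} (ha0 : 13 / 20 ≤ a) (ha1 : a ≤ 1) (hJ0 : 0 ≤ J) (hJ1 : J ≤ 17 / 25) :
    0 ≤ C23 a J := by
  have hx : 0 ≤ a - 13 / 20 := by linarith
  have hy : 0 ≤ 1 - a := by linarith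
  have hv : 0 ≤ 17 / 25 - J := by linarith
  have e : C23 a J =
      (1681251763711 / 346944500) * (1 - a) ^ 4 * (17 / 25 - J) ^ 2
      + (1631319758111 / 173472250) * (1 - a) ^ 4 * J * (17 / 25 - J)
      + (10249748465307 / 1734722500) * (1 - a) ^ 4 * J ^ 2
      + (296929904508 / 17347225) * (a - 13 / 20) * (1 - a) ^ 3 * (17 / 25 - J) ^ 2
      + (538934602856 / 17347225) * (a - 13 / 20) * (1 - a) ^ 3 * J * (17 / 25 - J)
      + (7976993554804 / 433680625) * (a - 13 / 20) * (1 - a) ^ 3 * J ^ 2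
      + (76210375408 / 3469445) * (a - 13 / 20) ^ 2 * (1 - a) ^ 2 * (17 / 25 - J) ^ 2
      + (125457467792 / 3469445) * (a - 13 / 20) ^ 2 * (1 - a) ^ 2 * J * (17 / 25 - J)
      + (8422300282184 / 433680625) * (a - 13 / 20) ^ 2 * (1 - a) ^ 2 * J ^ 2
      + (8494489344 / 693889) * (a - 13 / 20) ^ 3 * (1 - a) * (17 / 25 - J) ^ 2
      + (11995778128 / 693889) * (a - 13 / 20) ^ 3 * (1 - a) * J * (17 / 25 - J)
      + (3283314372808 / 433680625) * (a - 13 / 20) ^ 3 * (1 - a) * J ^ 2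
      + (1792941440 / 693889) * (a - 13 / 20) ^ 4 * (17 / 25 - J) ^ 2
      + (9940293504 / 3469445) * (a - 13 / 20) ^ 4 * J * (17 / 25 - J)
      + (58343421408 / 86736125) * (a - 13 / 20) ^ 4 * J ^ 2 := by
    unfold C23
    ring
  rw [e]
  positivity

noncomputable def C24 (a J : ℝ) : ℝ :=
  (4814303 / 312500) + (3671471 / 312500) * J + (3671471 / 312500) * J ^ 2 + (652 / 125) * a - (3671471 / 312500) * a * J - (3671471 / 312500) * a * J ^ 2 - (7741423 / 312500) * a ^ 2 + (64856 / 15625) * a ^ 4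

lemma C24_nonneg {a J : ℝ} (ha0 : 13 / 20 ≤ a) (ha1 : a ≤ 1) (hJ0 : 0 ≤ J) (hJ1 : J ≤ 17 / 25) :
    0 ≤ C24 a J := by
  have hx : 0 ≤ a - 13 / 20 := by linarith
  have hy : 0 ≤ 1 - a := by linarith
  have hv : 0 ≤ 17 / 25 - J := by linarith
  have e : C24 a J =
      (3239538068 / 2478175) * (1 - a) ^ 4 * (17 / 25 - J) ^ 2
      + (7477716248 / 2478175) * (1 - a) ^ 4 * J * (17 / 25 - J)
      + (122931336404 / 61954375) * (1 - a) ^ 4 * J ^ 2
      + (2030913368 / 495635) * (a - 13 / 20) * (1 - a) ^ 3 * (17 / 25 - J) ^ 2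
      + (23305054016 / 2478175) * (a - 13 / 20) * (1 - a) ^ 3 * J * (17 / 25 - J)
      + (379692825112 / 61954375) * (a - 13 / 20) * (1 - a) ^ 3 * J ^ 2
      + (2080604156 / 495635) * (a - 13 / 20) ^ 2 * (1 - a) ^ 2 * (17 / 25 - J) ^ 2
      + (23801961896 / 2478175) * (a - 13 / 20) ^ 2 * (1 - a) ^ 2 * J * (17 / 25 - J)
      + (385904173612 / 61954375) * (a - 13 / 20) ^ 2 * (1 - a) ^ 2 * J ^ 2
      + (138629856 / 99127) * (a - 13 / 20) ^ 3 * (1 - a) * (17 / 25 - J) ^ 2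
      + (7930132912 / 2478175) * (a - 13 / 20) ^ 3 * (1 - a) * J * (17 / 25 - J)
      + (128586544704 / 61954375) * (a - 13 / 20) ^ 3 * (1 - a) * J ^ 2 := by
    unfold C24
    ring
  rw [e]
  positivity

noncomputable def V2 (a d J : ℝ) : ℝ :=
  C20 a J * (1 - d) ^ 4
    + C21 a J * (d - (1 / 2)) * (1 - d) ^ 3
    + C22 a J * (d - (1 / 2)) ^ 2 * (1 - d) ^ 2
    + C23 a J * (d - (1 / 2)) ^ 3 * (1 - d)
    + C24 a J * (d - (1 / 2)) ^ 4

lemma V2_nonneg {a d J : ℝ} (ha0 : 13 / 20 ≤ a) (ha1 : a ≤ 1) (hd0 : 1 / 2 ≤ d) (hd1 : d ≤ 1)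
    (hJ0 : 0 ≤ J) (hJ1 : J ≤ 17 / 25) : 0 ≤ V2 a d J := by
  have hx : 0 ≤ d - (1 / 2) := by linarith
  have hy : 0 ≤ 1 - d := by linarith
  have h0 := C20_nonneg ha0 ha1 hJ0 hJ1
  have h1 := C21_nonneg ha0 ha1 hJ0 hJ1
  have h2 := C22_nonneg ha0 ha1 hJ0 hJ1
  have h3 := C23_nonneg ha0 ha1 hJ0 hJ1
  have h4 := C24_nonneg ha0 ha1 hJ0 hJ1
  unfold V2
  positivity

noncomputable def C30 (a J : ℝ) : ℝ :=
  (300894 / 78125) + (229467 / 78125) * J + (917868 / 78125) * J ^ 2 + (163 / 125) * a - (1606269 / 78125) * a * J - (458934 / 78125) * a * J ^ 2 + (287602 / 78125) * a ^ 2 + (354271 / 312500) * a ^ 4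

lemma C30_nonneg {a J : ℝ} (ha0 : 13 / 20 ≤ a) (ha1 : a ≤ 1) (hJ0 : 0 ≤ J) (hJ1 : J ≤ 17 / 25) :
    0 ≤ C30 a J := by
  have hx : 0 ≤ a - 13 / 20 := by linarith
  have hy : 0 ≤ 1 - a := by linarith
  have hv : 0 ≤ 17 / 25 - J := by linarith
  have e : C30 a J =
      (322838074831 / 346944500) * (1 - a) ^ 4 * (17 / 25 - J) ^ 2
      + (145579406671 / 173472250) * (1 - a) ^ 4 * J * (17 / 25 - J)
      + (758355565067 / 1734722500) * (1 - a) ^ 4 * J ^ 2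
      + (70985766828 / 17347225) * (a - 13 / 20) * (1 - a) ^ 3 * (17 / 25 - J) ^ 2
      + (58834721688 / 17347225) * (a - 13 / 20) * (1 - a) ^ 3 * J * (17 / 25 - J)
      + (553556641164 / 433680625) * (a - 13 / 20) * (1 - a) ^ 3 * J ^ 2
      + (23622678664 / 3469445) * (a - 13 / 20) ^ 2 * (1 - a) ^ 2 * (17 / 25 - J) ^ 2
      + (93171551632 / 17347225) * (a - 13 / 20) ^ 2 * (1 - a) ^ 2 * J * (17 / 25 - J)
      + (573324458024 / 433680625) * (a - 13 / 20) ^ 2 * (1 - a) ^ 2 * J ^ 2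
      + (3526121600 / 693889) * (a - 13 / 20) ^ 3 * (1 - a) * (17 / 25 - J) ^ 2
      + (68702578624 / 17347225) * (a - 13 / 20) ^ 3 * (1 - a) * J * (17 / 25 - J)
      + (252233029568 / 433680625) * (a - 13 / 20) ^ 3 * (1 - a) * J ^ 2
      + (997041600 / 693889) * (a - 13 / 20) ^ 4 * (17 / 25 - J) ^ 2
      + (3978573696 / 3469445) * (a - 13 / 20) ^ 4 * J * (17 / 25 - J)
      + (8787915456 / 86736125) * (a - 13 / 20) ^ 4 * J ^ 2 := by
    unfold C30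
    ring
  rw [e]
  positivity

noncomputable def C31 (a J : ℝ) : ℝ :=
  (1805364 / 78125) + (1376802 / 78125) * J + (3671472 / 78125) * J ^ 2 + (978 / 125) * a - (5966142 / 78125) * a * J - (458934 / 15625) * a * J ^ 2 - (331564 / 78125) * a ^ 2 + (692488 / 78125) * a ^ 4

lemma C31_nonneg {a J : ℝ} (ha0 : 13 / 20 ≤ a) (ha1 : a ≤ 1) (hJ0 : 0 ≤ J) (hJ1 : J ≤ 17 / 25) :
    0 ≤ C31 a J := by
  have hx : 0 ≤ a - 13 / 20 := by linarith
  have hy : 0 ≤ 1 - a := by linarith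
  have hv : 0 ≤ 17 / 25 - J := by linarith
  have e : C31 a J =
      (349792663368 / 86736125) * (1 - a) ^ 4 * (17 / 25 - J) ^ 2
      + (427455822096 / 86736125) * (1 - a) ^ 4 * J * (17 / 25 - J)
      + (238943580744 / 86736125) * (1 - a) ^ 4 * J ^ 2
      + (290372377216 / 17347225) * (a - 13 / 20) * (1 - a) ^ 3 * (17 / 25 - J) ^ 2
      + (317603013248 / 17347225) * (a - 13 / 20) * (1 - a) ^ 3 * J * (17 / 25 - J)
      + (721855765376 / 86736125) * (a - 13 / 20) * (1 - a) ^ 3 * J ^ 2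
      + (91389519296 / 3469445) * (a - 13 / 20) ^ 2 * (1 - a) ^ 2 * (17 / 25 - J) ^ 2
      + (451025374976 / 17347225) * (a - 13 / 20) ^ 2 * (1 - a) ^ 2 * J * (17 / 25 - J)
      + (759814116032 / 86736125) * (a - 13 / 20) ^ 2 * (1 - a) ^ 2 * J ^ 2
      + (13003297408 / 693889) * (a - 13 / 20) ^ 3 * (1 - a) * (17 / 25 - J) ^ 2
      + (296146854272 / 17347225) * (a - 13 / 20) ^ 3 * (1 - a) * J * (17 / 25 - J)
      + (64437294976 / 17347225) * (a - 13 / 20) ^ 3 * (1 - a) * J ^ 2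
      + (3555248640 / 693889) * (a - 13 / 20) ^ 4 * (17 / 25 - J) ^ 2
      + (3115935744 / 693889) * (a - 13 / 20) ^ 4 * J * (17 / 25 - J)
      + (46947207168 / 86736125) * (a - 13 / 20) ^ 4 * J ^ 2 := by
    unfold C31
    ring
  rw [e]
  positivity

noncomputable def C32 (a J : ℝ) : ℝ :=
  (3911622 / 78125) + (2983071 / 78125) * J + (5507208 / 78125) * J ^ 2 + (2119 / 125) * a - (1606269 / 15625) * a * J - (4130406 / 78125) * a * J ^ 2 - (692258 / 15625) * a ^ 2 + (1594449 / 78125) * a ^ 4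

lemma C32_nonneg {a J : ℝ} (ha0 : 13 / 20 ≤ a) (ha1 : a ≤ 1) (hJ0 : 0 ≤ J) (hJ1 : J ≤ 17 / 25) :
    0 ≤ C32 a J := by
  have hx : 0 ≤ a - 13 / 20 := by linarith
  have hy : 0 ≤ 1 - a := by linarith
  have hv : 0 ≤ 17 / 25 - J := by linarith
  have e : C32 a J =
      (82164339127 / 12390875) * (1 - a) ^ 4 * (17 / 25 - J) ^ 2
      + (129554593454 / 12390875) * (1 - a) ^ 4 * J * (17 / 25 - J)
      + (386105346131 / 61954375) * (1 - a) ^ 4 * J ^ 2
      + (63453391664 / 2478175) * (a - 13 / 20) * (1 - a) ^ 3 * (17 / 25 - J) ^ 2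
      + (90349412128 / 2478175) * (a - 13 / 20) * (1 - a) ^ 3 * J * (17 / 25 - J)
      + (1192620820208 / 61954375) * (a - 13 / 20) * (1 - a) ^ 3 * J ^ 2
      + (18417625088 / 495635) * (a - 13 / 20) ^ 2 * (1 - a) ^ 2 * (17 / 25 - J) ^ 2
      + (23246607808 / 495635) * (a - 13 / 20) ^ 2 * (1 - a) ^ 2 * J * (17 / 25 - J)
      + (1269359318848 / 61954375) * (a - 13 / 20) ^ 2 * (1 - a) ^ 2 * J ^ 2
      + (2414403136 / 99127) * (a - 13 / 20) ^ 3 * (1 - a) * (17 / 25 - J) ^ 2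
      + (13337315776 / 495635) * (a - 13 / 20) ^ 3 * (1 - a) * J * (17 / 25 - J)
      + (525590841856 / 61954375) * (a - 13 / 20) ^ 3 * (1 - a) * J ^ 2
      + (616074240 / 99127) * (a - 13 / 20) ^ 4 * (17 / 25 - J) ^ 2
      + (3022158336 / 495635) * (a - 13 / 20) ^ 4 * J * (17 / 25 - J)
      + (13096295424 / 12390875) * (a - 13 / 20) ^ 4 * J ^ 2 := by
    unfold C32
    ring
  rw [e]
  positivity

noncomputable def C33 (a J : ℝ) : ℝ :=
  (3610728 / 78125) + (2753604 / 78125) * J + (3671472 / 78125) * J ^ 2 + (1956 / 125) * a - (917868 / 15625) * a * J - (3212538 / 78125) * a * J ^ 2 - (955496 / 15625) * a ^ 2 + (1344988 / 78125) * a ^ 4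

lemma C33_nonneg {a J : ℝ} (ha0 : 13 / 20 ≤ a) (ha1 : a ≤ 1) (hJ0 : 0 ≤ J) (hJ1 : J ≤ 17 / 25) :
    0 ≤ C33 a J := by
  have hx : 0 ≤ a - 13 / 20 := by linarith
  have hy : 0 ≤ 1 - a := by linarith
  have hv : 0 ≤ 17 / 25 - J := by linarith
  have e : C33 a J =
      (420313034268 / 86736125) * (1 - a) ^ 4 * (17 / 25 - J) ^ 2
      + (815660058936 / 86736125) * (1 - a) ^ 4 * J * (17 / 25 - J)
      + (2562437708556 / 433680625) * (1 - a) ^ 4 * J ^ 2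
      + (296929974976 / 17347225) * (a - 13 / 20) * (1 - a) ^ 3 * (17 / 25 - J) ^ 2
      + (538934728832 / 17347225) * (a - 13 / 20) * (1 - a) ^ 3 * J * (17 / 25 - J)
      + (7976995467328 / 433680625) * (a - 13 / 20) * (1 - a) ^ 3 * J ^ 2
      + (76210395392 / 3469445) * (a - 13 / 20) ^ 2 * (1 - a) ^ 2 * (17 / 25 - J) ^ 2
      + (125457500416 / 3469445) * (a - 13 / 20) ^ 2 * (1 - a) ^ 2 * J * (17 / 25 - J)
      + (8422302479488 / 433680625) * (a - 13 / 20) ^ 2 * (1 - a) ^ 2 * J ^ 2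
      + (8494491904 / 693889) * (a - 13 / 20) ^ 3 * (1 - a) * (17 / 25 - J) ^ 2
      + (11995781888 / 693889) * (a - 13 / 20) ^ 3 * (1 - a) * J * (17 / 25 - J)
      + (3283315421056 / 433680625) * (a - 13 / 20) ^ 3 * (1 - a) * J ^ 2
      + (1792942080 / 693889) * (a - 13 / 20) ^ 4 * (17 / 25 - J) ^ 2
      + (9940297728 / 3469445) * (a - 13 / 20) ^ 4 * J * (17 / 25 - J)
      + (58343456256 / 86736125) * (a - 13 / 20) ^ 4 * J ^ 2 := by
    unfold C33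
    ring
  rw [e]
  positivity

noncomputable def C34 (a J : ℝ) : ℝ :=
  (1203576 / 78125) + (917868 / 78125) * J + (917868 / 78125) * J ^ 2 + (652 / 125) * a - (917868 / 78125) * a * J - (917868 / 78125) * a * J ^ 2 - (1935356 / 78125) * a ^ 2 + (64856 / 15625) * a ^ 4

lemma C34_nonneg {a J : ℝ} (ha0 : 13 / 20 ≤ a) (ha1 : a ≤ 1) (hJ0 : 0 ≤ J) (hJ1 : J ≤ 17 / 25) :
    0 ≤ C34 a J := by
  have hx : 0 ≤ a - 13 / 20 := by linarith
  have hy : 0 ≤ 1 - a := by linarith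
  have hv : 0 ≤ 17 / 25 - J := by linarith
  have e : C34 a J =
      (3239538728 / 2478175) * (1 - a) ^ 4 * (17 / 25 - J) ^ 2
      + (1495543568 / 495635) * (1 - a) ^ 4 * J * (17 / 25 - J)
      + (122931364328 / 61954375) * (1 - a) ^ 4 * J ^ 2
      + (2030913792 / 495635) * (a - 13 / 20) * (1 - a) ^ 3 * (17 / 25 - J) ^ 2
      + (23305059072 / 2478175) * (a - 13 / 20) * (1 - a) ^ 3 * J * (17 / 25 - J)
      + (379692912384 / 61954375) * (a - 13 / 20) * (1 - a) ^ 3 * J ^ 2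
      + (2080604608 / 495635) * (a - 13 / 20) ^ 2 * (1 - a) ^ 2 * (17 / 25 - J) ^ 2
      + (23801967232 / 2478175) * (a - 13 / 20) ^ 2 * (1 - a) ^ 2 * J * (17 / 25 - J)
      + (385904264384 / 61954375) * (a - 13 / 20) ^ 2 * (1 - a) ^ 2 * J ^ 2
      + (138629888 / 99127) * (a - 13 / 20) ^ 3 * (1 - a) * (17 / 25 - J) ^ 2
      + (7930134784 / 2478175) * (a - 13 / 20) ^ 3 * (1 - a) * J * (17 / 25 - J)
      + (128586576128 / 61954375) * (a - 13 / 20) ^ 3 * (1 - a) * J ^ 2 := by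
    unfold C34
    ring
  rw [e]
  positivity

noncomputable def V3 (a d J : ℝ) : ℝ :=
  C30 a J * (1 - d) ^ 4
    + C31 a J * (d - (1 / 2)) * (1 - d) ^ 3
    + C32 a J * (d - (1 / 2)) ^ 2 * (1 - d) ^ 2
    + C33 a J * (d - (1 / 2)) ^ 3 * (1 - d)
    + C34 a J * (d - (1 / 2)) ^ 4

lemma V3_nonneg {a d J : ℝ} (ha0 : 13 / 20 ≤ a) (ha1 : a ≤ 1) (hd0 : 1 / 2 ≤ d) (hd1 : d ≤ 1)
    (hJ0 : 0 ≤ J) (hJ1 : J ≤ 17 / 25) : 0 ≤ V3 a d J := by
  have hx : 0 ≤ d - (1 / 2) := by linarith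
  have hy : 0 ≤ 1 - d := by linarith
  have h0 := C30_nonneg ha0 ha1 hJ0 hJ1
  have h1 := C31_nonneg ha0 ha1 hJ0 hJ1
  have h2 := C32_nonneg ha0 ha1 hJ0 hJ1
  have h3 := C33_nonneg ha0 ha1 hJ0 hJ1
  have h4 := C34_nonneg ha0 ha1 hJ0 hJ1
  unfold V3
  positivity

end Vale.Agent.Lib.P322.Pot.Box3
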