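import Mathlib
import Vale.Agent.Lib.P322.Pot.Top.Box0
import Vale.Agent.Lib.P322.Pot.Top.Box1
import Vale.Agent.Lib.P322.Pot.Top.Box2
import Vale.Agent.Lib.P322.Pot.Top.Box3

/-!
P322, potential method, range `4/5 ≤ ρ ≤ 7/8`.  The polynomial inequality behind the pointwise inequality `PA_top`.
`L` stands for `log 2`, `h` for `log 2 - Lam ρ`, `L - h` for `Lam ρ`; `a`, `d` are the parameters of an atom (`|u| = a d`).
-/

namespace Vale.Agent.Lib.P322.Pot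

/-- right side minus left side of `PT_poly`.  It is jointly affine in `(L, h)`. -/
noncomputable def PTf (L h a d J : ℝ) : ℝ :=
  (2 * (L - h) * J - h) * (1 - a) + 2 * (L - h) * J ^ 2 * (1 - a * d)
    + 2 * (h + (L - h) * (a ^ 2 + d ^ 2 * (1 - a ^ 2) ^ 2)
        + (146 / 1000 - 312 / 1000 * h) * (1 - a ^ 2) * (a ^ 2 - 11 / 10 * d ^ 2)
        - (a ^ 2 * d ^ 2 / 2 + (L - 1 / 2) * a ^ 4 * d ^ 4))
    - (h + 2 * (L - h) * J) * (1 + a) * (1 - d ^ 2)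

lemma PT_low_id (L h a d J : ℝ) :
    2 * (1 + a) * PTf L h a d J =
      4 * (L - h) * (1 + a) * (J - a) ^ 2 + (L - h) * J * (2 * (1 + a) * d - J * a) ^ 2
        + a ^ 2 * (4 * (146 / 1000 - 312 / 1000 * h) * (1 - a ^ 2) * (1 + a) - (L - h) * J ^ 3)
        + 2 * (1 + a) * d ^ 2 * (2 * (L - h) * (1 - a ^ 2) ^ 2
            - 11 / 5 * (146 / 1000 - 312 / 1000 * h) * (1 - a ^ 2) - a ^ 2
            - 2 * (L - 1 / 2) * a ^ 4 * d ^ 2 + h * (1 + a)) := by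
  unfold PTf
  ring

lemma PT_low_c1 {L h a J : ℝ} (hL0 : 0.6931471 < L) (hL1 : L < 0.6931472)
    (hh0 : 233 / 1000 ≤ h) (hh1 : h ≤ 326 / 1000) (ha0 : 0 ≤ a) (ha1 : a ≤ 13 / 20)
    (hJ0 : 0 ≤ J) (hJ1 : J ≤ 17 / 25) :
    0 ≤ 4 * (146 / 1000 - 312 / 1000 * h) * (1 - a ^ 2) * (1 + a) - (L - h) * J ^ 3 := by
  have hz : 0 ≤ 146 / 1000 - 312 / 1000 * h := by linarith
  have hlam : 0 ≤ L - h := by norm_num at hL0 ⊢; linarith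
  have hp : 95 / 100 ≤ (1 - a ^ 2) * (1 + a) := by
    nlinarith [mul_nonneg ha0 (sub_nonneg.2 ha1), mul_nonneg (mul_nonneg ha0 ha0) (sub_nonneg.2 ha1),
      mul_nonneg ha0 ha0]
  have hJ3 : J ^ 3 ≤ (17 / 25) ^ 3 := pow_le_pow_left₀ hJ0 hJ1 3
  have h1 : (L - h) * J ^ 3 ≤ (L - h) * (17 / 25) ^ 3 := mul_le_mul_of_nonneg_left hJ3 hlam
  have h2 : 4 * (146 / 1000 - 312 / 1000 * h) * (95 / 100)
      ≤ 4 * (146 / 1000 - 312 / 1000 * h) * ((1 - a ^ 2) * (1 + a)) :=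
    mul_le_mul_of_nonneg_left hp (by linarith)
  norm_num at hL1 h1
  nlinarith

lemma PT_low_c2aux {h A : ℝ} (hh0 : 233 / 1000 ≤ h) (hh1 : h ≤ 326 / 1000) (hA0 : 0 ≤ A)
    (hA1 : A ≤ 169 / 400) :
    0 ≤ 2 * (6931471 / 10000000 - h) * (1 - A) ^ 2
      - 11 / 5 * (146 / 1000 - 312 / 1000 * h) * (1 - A) - A - 2 / 5 * (169 / 400) ^ 2 * A
      + h * (1 + 20 / 13 * A) := by
  have E0 : 0 ≤ 2 * (6931471 / 10000000 - 233 / 1000) * (1 - A) ^ 2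
      - 11 / 5 * (146 / 1000 - 312 / 1000 * (233 / 1000)) * (1 - A) - A
      - 2 / 5 * (169 / 400) ^ 2 * A + 233 / 1000 * (1 + 20 / 13 * A) := by
    nlinarith [mul_nonneg hA0 (sub_nonneg.2 hA1), sq_nonneg (169 / 400 - A)]
  have E1 : 0 ≤ 2 * (6931471 / 10000000 - 326 / 1000) * (1 - A) ^ 2
      - 11 / 5 * (146 / 1000 - 312 / 1000 * (326 / 1000)) * (1 - A) - A
      - 2 / 5 * (169 / 400) ^ 2 * A + 326 / 1000 * (1 + 20 / 13 * A) := by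
    nlinarith [mul_nonneg hA0 (sub_nonneg.2 hA1), sq_nonneg (169 / 400 - A)]
  have e : (326 / 1000 - 233 / 1000) * (2 * (6931471 / 10000000 - h) * (1 - A) ^ 2
      - 11 / 5 * (146 / 1000 - 312 / 1000 * h) * (1 - A) - A - 2 / 5 * (169 / 400) ^ 2 * A
      + h * (1 + 20 / 13 * A))
      = (326 / 1000 - h) * (2 * (6931471 / 10000000 - 233 / 1000) * (1 - A) ^ 2
      - 11 / 5 * (146 / 1000 - 312 / 1000 * (233 / 1000)) * (1 - A) - A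
      - 2 / 5 * (169 / 400) ^ 2 * A + 233 / 1000 * (1 + 20 / 13 * A))
      + (h - 233 / 1000) * (2 * (6931471 / 10000000 - 326 / 1000) * (1 - A) ^ 2
      - 11 / 5 * (146 / 1000 - 312 / 1000 * (326 / 1000)) * (1 - A) - A
      - 2 / 5 * (169 / 400) ^ 2 * A + 326 / 1000 * (1 + 20 / 13 * A)) := by ring
  have p : 0 ≤ (326 / 1000 - 233 / 1000) * (2 * (6931471 / 10000000 - h) * (1 - A) ^ 2
      - 11 / 5 * (146 / 1000 - 312 / 1000 * h) * (1 - A) - A - 2 / 5 * (169 / 400) ^ 2 * A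
      + h * (1 + 20 / 13 * A)) := by
    rw [e]
    exact add_nonneg (mul_nonneg (by linarith) E0) (mul_nonneg (by linarith) E1)
  exact nonneg_of_mul_nonneg_right p (by norm_num)

lemma PT_low_c2 {L h a d : ℝ} (hL0 : 0.6931471 < L) (hL1 : L < 0.6931472)
    (hh0 : 233 / 1000 ≤ h) (hh1 : h ≤ 326 / 1000) (ha0 : 0 ≤ a) (ha1 : a ≤ 13 / 20)
    (hd0 : 0 ≤ d) (hda : d ≤ a) :
    0 ≤ 2 * (L - h) * (1 - a ^ 2) ^ 2
            - 11 / 5 * (146 / 1000 - 312 / 1000 * h) * (1 - a ^ 2) - a ^ 2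
            - 2 * (L - 1 / 2) * a ^ 4 * d ^ 2 + h * (1 + a) := by
  have hA0 : 0 ≤ a ^ 2 := sq_nonneg a
  have hA1 : a ^ 2 ≤ 169 / 400 := by nlinarith
  have haA : 20 / 13 * a ^ 2 ≤ a := by nlinarith
  have hdA : d ^ 2 ≤ a ^ 2 := pow_le_pow_left₀ hd0 hda 2
  have aux := PT_low_c2aux hh0 hh1 hA0 hA1
  have hL0' : 6931471 / 10000000 ≤ L := by norm_num at hL0; linarith
  have hL1' : L - 1 / 2 ≤ 1 / 5 := by norm_num at hL1; linarith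
  have hL2' : 0 ≤ L - 1 / 2 := by linarith
  -- term 1
  have t1 : 2 * (6931471 / 10000000 - h) * (1 - a ^ 2) ^ 2 ≤ 2 * (L - h) * (1 - a ^ 2) ^ 2 :=
    mul_le_mul_of_nonneg_right (by linarith) (sq_nonneg _)
  -- term 2
  have q1 : a ^ 4 * d ^ 2 ≤ (169 / 400) ^ 2 * a ^ 2 := by
    have : a ^ 4 = a ^ 2 * a ^ 2 := by ring
    rw [this]
    exact mul_le_mul (mul_le_mul hA1 hA1 hA0 (by norm_num) |>.trans (by norm_num)) hdA
      (sq_nonneg d) (by norm_num)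
  have q0 : 0 ≤ a ^ 4 * d ^ 2 := by positivity
  have t2 : (L - 1 / 2) * (a ^ 4 * d ^ 2) ≤ 1 / 5 * ((169 / 400) ^ 2 * a ^ 2) :=
    mul_le_mul hL1' q1 q0 (by norm_num)
  -- term 3
  have t3 : h * (1 + 20 / 13 * a ^ 2) ≤ h * (1 + a) :=
    mul_le_mul_of_nonneg_left (by linarith) (by linarith)
  nlinarith

/-- With `lam = L - h`, `z = 146/1000 - 312/1000 h`:
`PTf = 2 lam (J-a)^2 + 2 lam J (1+a) (d - J a/(2(1+a)))^2 + a^2 (2 z (1-a^2) - lam J^3/(2(1+a))) + d^2 G0`,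
`G0 = 2 lam (1-a^2)^2 - (11/5) z (1-a^2) - a^2 - 2 (L - 1/2) a^4 d^2 + h (1+a)` (an identity).
For `a ≤ 13/20`, `d ≤ a`: `G0 ≥ 0.14` and `4 z (1-a^2)(1+a) - lam J^3 ≥ 0.05` (both affine in `h`, `L`). -/
lemma PT_low {L h a d J : ℝ} (hL0 : 0.6931471 < L) (hL1 : L < 0.6931472)
    (hh0 : 233 / 1000 ≤ h) (hh1 : h ≤ 326 / 1000) (ha0 : 0 ≤ a) (ha1 : a ≤ 13 / 20)
    (hd0 : 0 ≤ d) (hda : d ≤ a) (hJ0 : 0 ≤ J) (hJ1 : J ≤ 17 / 25) : 0 ≤ PTf L h a d J := by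
  have hlam : 0 ≤ L - h := by norm_num at hL0 ⊢; linarith
  have h1a : 0 < 1 + a := by linarith
  have c1 := PT_low_c1 hL0 hL1 hh0 hh1 ha0 ha1 hJ0 hJ1
  have c2 := PT_low_c2 hL0 hL1 hh0 hh1 ha0 ha1 hd0 hda
  have e := PT_low_id L h a d J
  have pos : 0 ≤ 2 * (1 + a) * PTf L h a d J := by
    rw [e]
    positivity
  have h2 : 0 < 2 * (1 + a) := by linarith
  exact nonneg_of_mul_nonneg_right pos h2 |> fun x => x

/-- `PTf` is jointly affine in `(L, h)`, so it is enough to treat the four vertices `L ∈ {0.6931471, 0.6931472}`, `h ∈ {233/1000, 326/1000}`: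
`(L1-L0)(h1-h0) PTf L h = (L1-L)(h1-h) PTf L0 h0 + (L-L0)(h1-h) PTf L1 h0 + (L1-L)(h-h0) PTf L0 h1 + (L-L0)(h-h0) PTf L1 h1` (by `ring`).
At each vertex, on this box, ALL coefficients of the expansion of `PTf` in the products
`(a-13/20)^i (1-a)^(4-i) (d-d0)^j (d1-d)^(4-j) J^k (17/25-J)^(2-k)` are `≥ 0` (checked in exact arithmetic).  One sum of 75 such terms is too big
for the elaborator; expand first in `d` only (5 coefficients, polynomials in `a, J`), then each coefficient in `a, J` (15 terms). -/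
lemma PT_box0 {L h a d J : ℝ} (hL0 : 0.6931471 < L) (hL1 : L < 0.6931472)
    (hh0 : 233 / 1000 ≤ h) (hh1 : h ≤ 326 / 1000) (ha0 : 13 / 20 ≤ a) (ha1 : a ≤ 1)
    (hd0 : 0 ≤ d) (hd1 : d ≤ 1 / 8) (hJ0 : 0 ≤ J) (hJ1 : J ≤ 17 / 25) : 0 ≤ PTf L h a d J := by
  have hL0' : (6931471 : ℝ) / 10000000 ≤ L := by norm_num at hL0 ⊢; linarith
  have hL1' : L ≤ (6931472 : ℝ) / 10000000 := by norm_num at hL1 ⊢; linarith
  have c0 := PTb0C0_nonneg hL0' hL1' hh0 hh1 ha0 ha1 hJ0 hJ1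
  have c1 := PTb0C1_nonneg hL0' hL1' hh0 hh1 ha0 ha1 hJ0 hJ1
  have c2 := PTb0C2_nonneg hL0' hL1' hh0 hh1 ha0 ha1 hJ0 hJ1
  have c3 := PTb0C3_nonneg hL0' hL1' hh0 hh1 ha0 ha1 hJ0 hJ1
  have c4 := PTb0C4_nonneg hL0' hL1' hh0 hh1 ha0 ha1 hJ0 hJ1
  have key : PTf L h a d J = (1 / 8 - d) ^ 4 * PTb0C0 L h a J + d * (1 / 8 - d) ^ 3 * PTb0C1 L h a J
      + d ^ 2 * (1 / 8 - d) ^ 2 * PTb0C2 L h a J + d ^ 3 * (1 / 8 - d) * PTb0C3 L h a J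
      + d ^ 4 * PTb0C4 L h a J := by
    unfold PTf PTb0C0 PTb0C1 PTb0C2 PTb0C3 PTb0C4
    ring
  have ht : 0 ≤ 1 / 8 - d := by linarith
  rw [key]
  positivity

/-- See `PT_box0`. -/
lemma PT_box1 {L h a d J : ℝ} (hL0 : 0.6931471 < L) (hL1 : L < 0.6931472)
    (hh0 : 233 / 1000 ≤ h) (hh1 : h ≤ 326 / 1000) (ha0 : 13 / 20 ≤ a) (ha1 : a ≤ 1)
    (hd0 : 1 / 8 ≤ d) (hd1 : d ≤ 1 / 4) (hJ0 : 0 ≤ J) (hJ1 : J ≤ 17 / 25) : 0 ≤ PTf L h a d J := by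
  have hL0' : (6931471 : ℝ) / 10000000 ≤ L := by norm_num at hL0 ⊢; linarith
  have hL1' : L ≤ (6931472 : ℝ) / 10000000 := by norm_num at hL1 ⊢; linarith
  have c0 := PTb1C0_nonneg hL0' hL1' hh0 hh1 ha0 ha1 hJ0 hJ1
  have c1 := PTb1C1_nonneg hL0' hL1' hh0 hh1 ha0 ha1 hJ0 hJ1
  have c2 := PTb1C2_nonneg hL0' hL1' hh0 hh1 ha0 ha1 hJ0 hJ1
  have c3 := PTb1C3_nonneg hL0' hL1' hh0 hh1 ha0 ha1 hJ0 hJ1
  have c4 := PTb1C4_nonneg hL0' hL1' hh0 hh1 ha0 ha1 hJ0 hJ1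
  have key : PTf L h a d J = (1 / 4 - d) ^ 4 * PTb1C0 L h a J
      + (d - 1 / 8) * (1 / 4 - d) ^ 3 * PTb1C1 L h a J
      + (d - 1 / 8) ^ 2 * (1 / 4 - d) ^ 2 * PTb1C2 L h a J
      + (d - 1 / 8) ^ 3 * (1 / 4 - d) * PTb1C3 L h a J
      + (d - 1 / 8) ^ 4 * PTb1C4 L h a J := by
    unfold PTf PTb1C0 PTb1C1 PTb1C2 PTb1C3 PTb1C4
    ring
  have ht : 0 ≤ 1 / 4 - d := by linarith
  have hs : 0 ≤ d - 1 / 8 := by linarith
  rw [key]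
  positivity

/-- See `PT_box0`. -/
lemma PT_box2 {L h a d J : ℝ} (hL0 : 0.6931471 < L) (hL1 : L < 0.6931472)
    (hh0 : 233 / 1000 ≤ h) (hh1 : h ≤ 326 / 1000) (ha0 : 13 / 20 ≤ a) (ha1 : a ≤ 1)
    (hd0 : 1 / 4 ≤ d) (hd1 : d ≤ 1 / 2) (hJ0 : 0 ≤ J) (hJ1 : J ≤ 17 / 25) : 0 ≤ PTf L h a d J := by
  have hL0' : (6931471 : ℝ) / 10000000 ≤ L := by norm_num at hL0 ⊢; linarith
  have hL1' : L ≤ (6931472 : ℝ) / 10000000 := by norm_num at hL1 ⊢; linarith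
  have c0 := PTb2C0_nonneg hL0' hL1' hh0 hh1 ha0 ha1 hJ0 hJ1
  have c1 := PTb2C1_nonneg hL0' hL1' hh0 hh1 ha0 ha1 hJ0 hJ1
  have c2 := PTb2C2_nonneg hL0' hL1' hh0 hh1 ha0 ha1 hJ0 hJ1
  have c3 := PTb2C3_nonneg hL0' hL1' hh0 hh1 ha0 ha1 hJ0 hJ1
  have c4 := PTb2C4_nonneg hL0' hL1' hh0 hh1 ha0 ha1 hJ0 hJ1
  have key : PTf L h a d J = (1 / 2 - d) ^ 4 * PTb2C0 L h a J
      + (d - 1 / 4) * (1 / 2 - d) ^ 3 * PTb2C1 L h a J
      + (d - 1 / 4) ^ 2 * (1 / 2 - d) ^ 2 * PTb2C2 L h a J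
      + (d - 1 / 4) ^ 3 * (1 / 2 - d) * PTb2C3 L h a J
      + (d - 1 / 4) ^ 4 * PTb2C4 L h a J := by
    unfold PTf PTb2C0 PTb2C1 PTb2C2 PTb2C3 PTb2C4
    ring
  have ht : 0 ≤ 1 / 2 - d := by linarith
  have hs : 0 ≤ d - 1 / 4 := by linarith
  rw [key]
  positivity

/-- See `PT_box0`. -/
lemma PT_box3 {L h a d J : ℝ} (hL0 : 0.6931471 < L) (hL1 : L < 0.6931472)
    (hh0 : 233 / 1000 ≤ h) (hh1 : h ≤ 326 / 1000) (ha0 : 13 / 20 ≤ a) (ha1 : a ≤ 1)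
    (hd0 : 1 / 2 ≤ d) (hd1 : d ≤ 1) (hJ0 : 0 ≤ J) (hJ1 : J ≤ 17 / 25) : 0 ≤ PTf L h a d J := by
  have v0 : 0 ≤ PTf (6931471 / 10000000) (233 / 1000) a d J := by
    have e : PTf (6931471 / 10000000) (233 / 1000) a d J = Box3.V0 a d J := by
      unfold PTf Box3.V0 Box3.C00 Box3.C01 Box3.C02 Box3.C03 Box3.C04
      ring
    rw [e]
    exact Box3.V0_nonneg ha0 ha1 hd0 hd1 hJ0 hJ1
  have v1 : 0 ≤ PTf (6931472 / 10000000) (233 / 1000) a d J := by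
    have e : PTf (6931472 / 10000000) (233 / 1000) a d J = Box3.V1 a d J := by
      unfold PTf Box3.V1 Box3.C10 Box3.C11 Box3.C12 Box3.C13 Box3.C14
      ring
    rw [e]
    exact Box3.V1_nonneg ha0 ha1 hd0 hd1 hJ0 hJ1
  have v2 : 0 ≤ PTf (6931471 / 10000000) (326 / 1000) a d J := by
    have e : PTf (6931471 / 10000000) (326 / 1000) a d J = Box3.V2 a d J := by
      unfold PTf Box3.V2 Box3.C20 Box3.C21 Box3.C22 Box3.C23 Box3.C24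
      ring
    rw [e]
    exact Box3.V2_nonneg ha0 ha1 hd0 hd1 hJ0 hJ1
  have v3 : 0 ≤ PTf (6931472 / 10000000) (326 / 1000) a d J := by
    have e : PTf (6931472 / 10000000) (326 / 1000) a d J = Box3.V3 a d J := by
      unfold PTf Box3.V3 Box3.C30 Box3.C31 Box3.C32 Box3.C33 Box3.C34
      ring
    rw [e]
    exact Box3.V3_nonneg ha0 ha1 hd0 hd1 hJ0 hJ1
  have hA0 : (0 : ℝ) ≤ L - 6931471 / 10000000 := by norm_num at hL0 ⊢; linarith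
  have hA1 : (0 : ℝ) ≤ 6931472 / 10000000 - L := by norm_num at hL1 ⊢; linarith
  have hB0 : (0 : ℝ) ≤ h - 233 / 1000 := by linarith
  have hB1 : (0 : ℝ) ≤ 326 / 1000 - h := by linarith
  have key : (1 / 10000000 : ℝ) * (93 / 1000) * PTf L h a d J
      = (6931472 / 10000000 - L) * (326 / 1000 - h) * PTf (6931471 / 10000000) (233 / 1000) a d J
        + (L - 6931471 / 10000000) * (326 / 1000 - h) * PTf (6931472 / 10000000) (233 / 1000) a d J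
        + (6931472 / 10000000 - L) * (h - 233 / 1000) * PTf (6931471 / 10000000) (326 / 1000) a d J
        + (L - 6931471 / 10000000) * (h - 233 / 1000) * PTf (6931472 / 10000000) (326 / 1000) a d J := by
    unfold PTf
    ring
  have t0 := mul_nonneg (mul_nonneg hA1 hB1) v0
  have t1 := mul_nonneg (mul_nonneg hA0 hB1) v1
  have t2 := mul_nonneg (mul_nonneg hA1 hB0) v2
  have t3 := mul_nonneg (mul_nonneg hA0 hB0) v3
  linarith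

lemma PT_poly {L h a d J : ℝ} (hL0 : 0.6931471 < L) (hL1 : L < 0.6931472)
    (hh0 : 233 / 1000 ≤ h) (hh1 : h ≤ 326 / 1000) (ha0 : 0 ≤ a) (ha1 : a ≤ 1)
    (hd0 : 0 ≤ d) (hda : d ≤ a) (hJ0 : 0 ≤ J) (hJ1 : J ≤ 17 / 25) :
    (h + 2 * (L - h) * J) * (1 + a) * (1 - d ^ 2) ≤
      (2 * (L - h) * J - h) * (1 - a) + 2 * (L - h) * J ^ 2 * (1 - a * d)
        + 2 * (h + (L - h) * (a ^ 2 + d ^ 2 * (1 - a ^ 2) ^ 2)
            + (146 / 1000 - 312 / 1000 * h) * (1 - a ^ 2) * (a ^ 2 - 11 / 10 * d ^ 2)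
            - (a ^ 2 * d ^ 2 / 2 + (L - 1 / 2) * a ^ 4 * d ^ 4)) := by
  have key : 0 ≤ PTf L h a d J := by
    rcases le_total a (13 / 20) with h1 | h1
    · exact PT_low hL0 hL1 hh0 hh1 ha0 h1 hd0 hda hJ0 hJ1
    · rcases le_total d (1 / 8) with h2 | h2
      · exact PT_box0 hL0 hL1 hh0 hh1 h1 ha1 hd0 h2 hJ0 hJ1
      · rcases le_total d (1 / 4) with h3 | h3
        · exact PT_box1 hL0 hL1 hh0 hh1 h1 ha1 h2 h3 hJ0 hJ1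
        · rcases le_total d (1 / 2) with h4 | h4
          · exact PT_box2 hL0 hL1 hh0 hh1 h1 ha1 h3 h4 hJ0 hJ1
          · exact PT_box3 hL0 hL1 hh0 hh1 h1 ha1 h4 (le_trans hda ha1) hJ0 hJ1
  unfold PTf at key
  linarith

/-- Monotonicity, as `psi_mono` (same proof) with a general constant `T ≥ 0` in place of `lam J^2` and `R ≥ h` in place of `h + 2 lam J`. -/
lemma psi_mono2 {h R T x x1 c K0 : ℝ} (hh : 0 ≤ h) (hR : h ≤ R) (hT : 0 ≤ T) (hx1 : 0 ≤ x1)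
    (hx : x1 ≤ x) (hc : 0 ≤ c) (hK : K0 ≤ c + h * x) :
    x1 * ((R - 2 * h) * x1 + 2 * T + 2 * K0) ≤ x * (R * x + 2 * T + 2 * c) := by
  have h1 : x1 * ((R - 2 * h) * x1 + 2 * T + 2 * K0)
      ≤ x1 * ((R - 2 * h) * x1 + 2 * T + 2 * (c + h * x)) := by
    apply mul_le_mul_of_nonneg_left _ hx1
    linarith
  refine h1.trans ?_
  have hd : 0 ≤ x - x1 := by linarith
  have hx0 : 0 ≤ x := by linarith
  have hRh : 0 ≤ R - h := by linarith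
  have e : x * (R * x + 2 * T + 2 * c)
      - x1 * ((R - 2 * h) * x1 + 2 * T + 2 * (c + h * x))
      = h * (x - x1) ^ 2 + (R - h) * (x - x1) * (x + x1) + 2 * T * (x - x1)
        + 2 * c * (x - x1) := by ring
  have : 0 ≤ h * (x - x1) ^ 2 + (R - h) * (x - x1) * (x + x1) + 2 * T * (x - x1)
        + 2 * c * (x - x1) := by positivity
  linarith

lemma xi_aux_b1a {A : ℝ} (h0 : 0 ≤ A) (h1 : A ≤ 1 / 2) :
    0 ≤ (21 / 10) + (-241 / 33) * A ^ 1 + (85 / 11) * A ^ 2 + (-50 / 33) * A ^ 3 + (-10 / 11) * A ^ 4 := by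
  obtain ⟨u, hu⟩ : ∃ u : ℝ, u = A - 0 := ⟨_, rfl⟩
  obtain ⟨v, hv⟩ : ∃ v : ℝ, v = 1 / 2 - A := ⟨_, rfl⟩
  have hu0 : 0 ≤ u := by rw [hu]; linarith
  have hv0 : 0 ≤ v := by rw [hv]; linarith
  have key : (21 / 10) + (-241 / 33) * A ^ 1 + (85 / 11) * A ^ 2 + (-50 / 33) * A ^ 3 + (-10 / 11) * A ^ 4
      = (168 / 5) * u ^ 0 * v ^ 4
        + (12536 / 165) * u ^ 1 * v ^ 3
        + (3148 / 55) * u ^ 2 * v ^ 2
        + (2956 / 165) * u ^ 3 * v ^ 1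
        + (118 / 55) * u ^ 4 * v ^ 0 := by
    rw [hu, hv]
    ring
  rw [key]
  positivity

lemma xi_aux_b1b {A : ℝ} (h0 : 1 / 2 ≤ A) (h1 : A ≤ 1) :
    0 ≤ (21 / 10) + (-241 / 33) * A ^ 1 + (85 / 11) * A ^ 2 + (-50 / 33) * A ^ 3 + (-10 / 11) * A ^ 4 := by
  obtain ⟨u, hu⟩ : ∃ u : ℝ, u = A - 1 / 2 := ⟨_, rfl⟩
  obtain ⟨v, hv⟩ : ∃ v : ℝ, v = 1 - A := ⟨_, rfl⟩
  have hu0 : 0 ≤ u := by rw [hu]; linarith
  have hv0 : 0 ≤ v := by rw [hv]; linarith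
  have key : (21 / 10) + (-241 / 33) * A ^ 1 + (85 / 11) * A ^ 2 + (-50 / 33) * A ^ 3 + (-10 / 11) * A ^ 4
      = (236 / 55) * u ^ 0 * v ^ 5
        + (92 / 33) * u ^ 1 * v ^ 4
        + (32 / 33) * u ^ 2 * v ^ 3
        + (520 / 33) * u ^ 3 * v ^ 2
        + (544 / 33) * u ^ 4 * v ^ 1
        + (16 / 5) * u ^ 5 * v ^ 0 := by
    rw [hu, hv]
    ring
  rw [key]
  positivity

lemma xi_aux_b2 {A : ℝ} (h0 : 0 ≤ A) (h1 : A ≤ 1) :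
    0 ≤ (21 / 10) + (-251 / 33) * A ^ 1 + (104 / 11) * A ^ 2 + (-1400 / 363) * A ^ 3 + (-130 / 363) * A ^ 4 + (100 / 363) * A ^ 6 := by
  obtain ⟨u, hu⟩ : ∃ u : ℝ, u = A - 0 := ⟨_, rfl⟩
  obtain ⟨v, hv⟩ : ∃ v : ℝ, v = 1 - A := ⟨_, rfl⟩
  have hu0 : 0 ≤ u := by rw [hu]; linarith
  have hv0 : 0 ≤ v := by rw [hv]; linarith
  have key : (21 / 10) + (-251 / 33) * A ^ 1 + (104 / 11) * A ^ 2 + (-1400 / 363) * A ^ 3 + (-130 / 363) * A ^ 4 + (100 / 363) * A ^ 6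
      = (21 / 10) * u ^ 0 * v ^ 7
        + (2341 / 330) * u ^ 1 * v ^ 6
        + (871 / 110) * u ^ 2 * v ^ 5
        + (2051 / 726) * u ^ 3 * v ^ 4
        + (101 / 726) * u ^ 4 * v ^ 3
        + (411 / 1210) * u ^ 5 * v ^ 2
        + (401 / 3630) * u ^ 6 * v ^ 1
        + (1 / 110) * u ^ 7 * v ^ 0 := by
    rw [hu, hv]
    ring
  rw [key]
  positivity

lemma xi_aux_b3 {A : ℝ} (h0 : 0 ≤ A) (h1 : A ≤ 1) :
    0 ≤ (21 / 10) + (-87 / 11) * A ^ 1 + (123 / 11) * A ^ 2 + (-850 / 121) * A ^ 3 + (200 / 121) * A ^ 4 := by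
  obtain ⟨u, hu⟩ : ∃ u : ℝ, u = A - 0 := ⟨_, rfl⟩
  obtain ⟨v, hv⟩ : ∃ v : ℝ, v = 1 - A := ⟨_, rfl⟩
  have hu0 : 0 ≤ u := by rw [hu]; linarith
  have hv0 : 0 ≤ v := by rw [hv]; linarith
  have key : (21 / 10) + (-87 / 11) * A ^ 1 + (123 / 11) * A ^ 2 + (-850 / 121) * A ^ 3 + (200 / 121) * A ^ 4
      = (21 / 10) * u ^ 0 * v ^ 4
        + (27 / 55) * u ^ 1 * v ^ 3
        + (3 / 55) * u ^ 2 * v ^ 2
        + (7 / 605) * u ^ 3 * v ^ 1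
        + (1 / 1210) * u ^ 4 * v ^ 0 := by
    rw [hu, hv]
    ring
  rw [key]
  positivity

lemma xi_aux_P {A q : ℝ} (hA0 : 0 < A) (hA1 : A ≤ 1) (hq0 : 0 ≤ q) (hq : 11 / 10 * q ≤ A) :
    0 ≤ 21 / 10 - q - 7 * A + 57 / 10 * A * q - 3 * A * q ^ 2 + 6 * A ^ 2 - 5 * A ^ 2 * q + 53 / 10 * A ^ 2 * q ^ 2
        - 3 * A ^ 3 * q - 11 / 10 * A ^ 3 * q ^ 3 + A ^ 4 * q ^ 2 := by
  have b0 : 0 ≤ (21 / 10) + (-7) * A ^ 1 + (6) * A ^ 2 := by nlinarith [sq_nonneg (A - 7 / 12)]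
  have b1 : 0 ≤ (21 / 10) + (-241 / 33) * A ^ 1 + (85 / 11) * A ^ 2 + (-50 / 33) * A ^ 3 + (-10 / 11) * A ^ 4 := by
    rcases le_total A (1 / 2) with h | h
    · exact xi_aux_b1a hA0.le h
    · exact xi_aux_b1b h hA1
  have b2 : 0 ≤ (21 / 10) + (-251 / 33) * A ^ 1 + (104 / 11) * A ^ 2 + (-1400 / 363) * A ^ 3 + (-130 / 363) * A ^ 4 + (100 / 363) * A ^ 6 := xi_aux_b2 hA0.le hA1
  have b3 : 0 ≤ (21 / 10) + (-87 / 11) * A ^ 1 + (123 / 11) * A ^ 2 + (-850 / 121) * A ^ 3 + (200 / 121) * A ^ 4 := xi_aux_b3 hA0.le hA1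
  obtain ⟨w, hw⟩ : ∃ w : ℝ, w = A - 11 / 10 * q := ⟨_, rfl⟩
  have hw0 : 0 ≤ w := by rw [hw]; linarith
  have key : A ^ 3 * (21 / 10 - q - 7 * A + 57 / 10 * A * q - 3 * A * q ^ 2 + 6 * A ^ 2 - 5 * A ^ 2 * q + 53 / 10 * A ^ 2 * q ^ 2
        - 3 * A ^ 3 * q - 11 / 10 * A ^ 3 * q ^ 3 + A ^ 4 * q ^ 2)
      = ((21 / 10) + (-7) * A ^ 1 + (6) * A ^ 2) * w ^ 3
        + 3 * ((21 / 10) + (-241 / 33) * A ^ 1 + (85 / 11) * A ^ 2 + (-50 / 33) * A ^ 3 + (-10 / 11) * A ^ 4) * (11 / 10 * q) * w ^ 2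
        + 3 * ((21 / 10) + (-251 / 33) * A ^ 1 + (104 / 11) * A ^ 2 + (-1400 / 363) * A ^ 3 + (-130 / 363) * A ^ 4 + (100 / 363) * A ^ 6) * (11 / 10 * q) ^ 2 * w
        + ((21 / 10) + (-87 / 11) * A ^ 1 + (123 / 11) * A ^ 2 + (-850 / 121) * A ^ 3 + (200 / 121) * A ^ 4) * (11 / 10 * q) ^ 3 := by
    rw [hw]
    ring
  have h3 : 0 < A ^ 3 := by positivity
  have hpos : 0 ≤ A ^ 3 * (21 / 10 - q - 7 * A + 57 / 10 * A * q - 3 * A * q ^ 2 + 6 * A ^ 2 - 5 * A ^ 2 * q + 53 / 10 * A ^ 2 * q ^ 2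
        - 3 * A ^ 3 * q - 11 / 10 * A ^ 3 * q ^ 3 + A ^ 4 * q ^ 2) := by
    rw [key]
    positivity
  exact (mul_nonneg_iff_of_pos_left h3).1 hpos

/-- With `A = a^2`, `q = d^2`: after division by `1 - A ≥ 0` the claim is
`(A - (11/10) q)(1 - A q)^3 ≤ (1-q)(1 - A q)^2 - (1-A)(1-q)^2 (1 + 3 A q)`; the difference vanishes at `q = 0` and equals `q` times a polynomial
whose value at `q = 0` is `21/10 - 7A + 6A^2 ≥ 0.058`. -/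
lemma xi_alg {a d : ℝ} (ha0 : 0 ≤ a) (ha1 : a ≤ 1) (hd : 11 / 10 * d ^ 2 ≤ a ^ 2) :
    (1 - a ^ 2) * (a ^ 2 - 11 / 10 * d ^ 2) * (1 - a ^ 2 * d ^ 2) ^ 3 ≤
      (1 - a ^ 2) * (1 - d ^ 2) * (1 - a ^ 2 * d ^ 2) ^ 2
        - ((1 - a ^ 2) * (1 - d ^ 2)) ^ 2 * (1 + 3 * a ^ 2 * d ^ 2) := by
  obtain ⟨A, hA⟩ : ∃ A : ℝ, A = a ^ 2 := ⟨_, rfl⟩
  obtain ⟨q, hq⟩ : ∃ q : ℝ, q = d ^ 2 := ⟨_, rfl⟩
  rw [← hA, ← hq] at hd ⊢
  have hA0 : 0 ≤ A := by rw [hA]; positivity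
  have hA1 : A ≤ 1 := by rw [hA]; nlinarith
  have hq0 : 0 ≤ q := by rw [hq]; positivity
  have key : (1 - A) * (1 - q) * (1 - A * q) ^ 2 - ((1 - A) * (1 - q)) ^ 2 * (1 + 3 * A * q)
        - (1 - A) * (A - 11 / 10 * q) * (1 - A * q) ^ 3
      = (1 - A) * q * (21 / 10 - q - 7 * A + 57 / 10 * A * q - 3 * A * q ^ 2 + 6 * A ^ 2 - 5 * A ^ 2 * q + 53 / 10 * A ^ 2 * q ^ 2
        - 3 * A ^ 3 * q - 11 / 10 * A ^ 3 * q ^ 3 + A ^ 4 * q ^ 2) := by ring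
  rcases hA0.eq_or_lt with h0 | h0
  · have hq' : q = 0 := by
      have : q ≤ 0 := by rw [← h0] at hd; linarith
      linarith
    rw [← h0, hq']
    norm_num
  · have hP := xi_aux_P h0 hA1 hq0 hd
    have h1 : 0 ≤ (1 - A) * q * (21 / 10 - q - 7 * A + 57 / 10 * A * q - 3 * A * q ^ 2 + 6 * A ^ 2 - 5 * A ^ 2 * q + 53 / 10 * A ^ 2 * q ^ 2
        - 3 * A ^ 3 * q - 11 / 10 * A ^ 3 * q ^ 3 + A ^ 4 * q ^ 2) :=
      mul_nonneg (mul_nonneg (by linarith) hq0) hP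
    linarith [key, h1]

lemma SC_top_key {h lam m J b : ℝ} (hh : 0 < h) (hl : 0 ≤ lam) (hm0 : 0 ≤ m) (hm1 : m < 1)
    (hJ0 : 0 ≤ J) (hb0 : 0 ≤ b) (hb1 : b ≤ 1 - J) (hb2 : b ≤ 1 - m)
    (hR1 : h + 2 * lam * J ≤ 1) (hR2 : h + h * J + 2 * lam * J ^ 2 ≤ 1) :
    m * ((b + 2 * J) * (h + 2 * lam * J) - 1) ≤ 2 * lam * J ^ 2 := by
  have hR0 : 0 ≤ h + 2 * lam * J := by positivity
  have hfJ : J * ((1 + J) * (h + 2 * lam * J) - 1) ≤ 2 * lam * J ^ 2 := by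
    have e : J * ((1 + J) * (h + 2 * lam * J) - 1)
        = 2 * lam * J ^ 2 - J * (1 - (h + h * J + 2 * lam * J ^ 2)) := by ring
    have : 0 ≤ J * (1 - (h + h * J + 2 * lam * J ^ 2)) := mul_nonneg hJ0 (by linarith)
    linarith
  rcases le_total m J with hmJ | hmJ
  · have s1 : (b + 2 * J) * (h + 2 * lam * J) ≤ (1 + J) * (h + 2 * lam * J) :=
      mul_le_mul_of_nonneg_right (by linarith) hR0
    have s2 : m * ((b + 2 * J) * (h + 2 * lam * J) - 1)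
        ≤ m * ((1 + J) * (h + 2 * lam * J) - 1) :=
      mul_le_mul_of_nonneg_left (by linarith) hm0
    refine s2.trans ?_
    rcases le_total ((1 + J) * (h + 2 * lam * J) - 1) 0 with hneg | hpos
    · have : m * ((1 + J) * (h + 2 * lam * J) - 1) ≤ 0 := mul_nonpos_of_nonneg_of_nonpos hm0 hneg
      have : 0 ≤ 2 * lam * J ^ 2 := by positivity
      linarith
    · exact (mul_le_mul_of_nonneg_right hmJ hpos).trans hfJ
  · have s1 : (b + 2 * J) * (h + 2 * lam * J) ≤ (1 - m + 2 * J) * (h + 2 * lam * J) :=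
      mul_le_mul_of_nonneg_right (by linarith) hR0
    have s2 : m * ((b + 2 * J) * (h + 2 * lam * J) - 1)
        ≤ m * ((1 - m + 2 * J) * (h + 2 * lam * J) - 1) :=
      mul_le_mul_of_nonneg_left (by linarith) hm0
    refine s2.trans ?_
    have e : m * ((1 - m + 2 * J) * (h + 2 * lam * J) - 1)
        = J * ((1 + J) * (h + 2 * lam * J) - 1)
          - (m - J) * (1 - (h + 2 * lam * J) * (1 + J - m)) := by ring
    have t1 : (h + 2 * lam * J) * (1 + J - m) ≤ 1 * 1 :=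
      mul_le_mul hR1 (by linarith) (by linarith) (by norm_num)
    have : 0 ≤ (m - J) * (1 - (h + 2 * lam * J) * (1 + J - m)) :=
      mul_nonneg (by linarith) (by linarith)
    linarith

/-- Scalar step.  Put `R = h + 2 lam J`.  Since `C ≤ h J + lam J^2 - m^2/2` and `2 h J + 4 lam J^2 = 2 J R`, after multiplication by `R` the claim
follows from `m ((b + 2J) R - 1) ≤ 2 lam J^2`.  If `m ≤ J`: use `b ≤ 1 - J` and `J ((1+J) R - 1) = 2 lam J^2 - J (1 - h - h J - 2 lam J^2)`.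
If `J ≤ m`: use `b ≤ 1 - m`; `f m = 2 lam J^2 + m - m (1 - m + 2J) R` has `f J ≥ 0` and `f m - f J = (m - J)(1 - R (1 + J - m)) ≥ 0`. -/
lemma SC_top {h lam m Lm J b C : ℝ} (hh : 0 < h) (hl : 0 ≤ lam) (hm0 : 0 ≤ m) (hm1 : m < 1)
    (hLm : m ^ 2 / 2 ≤ Lm) (hub : h * J + lam * J ^ 2 = Lm + C) (hJ0 : 0 ≤ J)
    (hb0 : 0 ≤ b) (hb1 : b ≤ 1 - J) (hb2 : b ≤ 1 - m)
    (hR1 : h + 2 * lam * J ≤ 1) (hR2 : h + h * J + 2 * lam * J ^ 2 ≤ 1) :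
    b + 2 * (lam * J ^ 2 * (1 - m) + C) / (h + 2 * lam * J) ≤ (1 - m ^ 2) * (b + 2 * J) := by
  have hR0 : 0 < h + 2 * lam * J := by positivity
  have key := SC_top_key hh hl hm0 hm1 hJ0 hb0 hb1 hb2 hR1 hR2
  have key2 : m * (m * ((b + 2 * J) * (h + 2 * lam * J) - 1)) ≤ m * (2 * lam * J ^ 2) :=
    mul_le_mul_of_nonneg_left key hm0
  have hC : C ≤ h * J + lam * J ^ 2 - m ^ 2 / 2 := by linarith
  have main : 2 * (lam * J ^ 2 * (1 - m) + C)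
      ≤ ((1 - m ^ 2) * (b + 2 * J) - b) * (h + 2 * lam * J) := by
    nlinarith
  have : 2 * (lam * J ^ 2 * (1 - m) + C) / (h + 2 * lam * J) ≤ (1 - m ^ 2) * (b + 2 * J) - b := by
    rw [div_le_iff₀ hR0]
    exact main
  linarith

end Vale.Agent.Lib.P322.Pot
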