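import Vale.Agent.Lib.P322.Pot.Top.Quart
import Vale.Agent.Lib.P322.Pot.Top.Consts
import Vale.Agent.Lib.P322.Pot.Top.Poly

/-!
P322, potential method, range `4/5 ≤ ρ ≤ 7/8`.  The pointwise inequality.
-/

namespace Vale.Agent.Lib.P322.Pot

open Real Vale.Agent.Lib.P322

/-- Facts about one atom with `|u| < 1` (compare `atom_hi`).  Take `a, d0` from `param`, `d = |d0|` (so `d ≤ a`, `|u| = a d`, `u^2 = a^2 d^2`),
`w = v^2/(1-u^2)`, `h = log 2 - Lam ρ`, `z = 146/1000 - 312/1000 h` (`0 ≤ z ≤ ζ := Lam ρ - ρ^2/2` by `consts_top`, `zeta_top`).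
(1) `x0_avg` (hypotheses from `consts_top`) reads `h (1 - 2a + (1-w)) + (1-ρ^2)(a - (1-w)) ≤ Gf`; `a - (1-w) ≥ 0` (`param_G2`) and `1 - ρ^2 ≥ h` give `h (1-a) ≤ Gf`.
(2) `cf + Gf = log 2 - Lam u - S`, `S = (Lam (u+ρv) + Lam (u-ρv))/2 - Lam u`.
If `(11/10) d^2 ≤ a^2`: `eS_upper2` gives `S ≤ Lam ρ w - ζ (w - v^4 (1+3u^2)/(1-u^2)^3)`, and `xi_alg` divided by `(1-u^2)^3 > 0` gives
`w - v^4 (1+3u^2)/(1-u^2)^3 ≥ (1-a^2)(a^2 - (11/10) d^2) ≥ 0`.  Otherwise `eS_upper` gives `S ≤ Lam ρ w` and `z (1-a^2)(a^2 - (11/10) d^2) ≤ 0`.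
In both cases finish with `1 - w - a^2 ≥ d^2 (1-a^2)^2` (`atom_hi_alg2`) and `Lam u ≤ u^2/2 + (log 2 - 1/2) u^4` (`Lam_le_quartic`). -/
lemma atom_top {ρ u v : ℝ} (h0 : 4 / 5 ≤ ρ) (h1 : ρ ≤ 7 / 8) (huv : |u| + |v| ≤ 1) (hu : |u| < 1) :
    ∃ a d : ℝ, 0 ≤ a ∧ a ≤ 1 ∧ 0 ≤ d ∧ d ≤ a ∧ |u| = a * d ∧ v ^ 2 = (1 - a ^ 2) * (1 - d ^ 2) ∧
      (Real.log 2 - Lam ρ) * (1 - a) ≤ Gf ρ u v ∧
      (Real.log 2 - Lam ρ) + Lam ρ * (a ^ 2 + d ^ 2 * (1 - a ^ 2) ^ 2)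
          + (146 / 1000 - 312 / 1000 * (Real.log 2 - Lam ρ)) * (1 - a ^ 2) * (a ^ 2 - 11 / 10 * d ^ 2)
          - (a ^ 2 * d ^ 2 / 2 + (Real.log 2 - 1 / 2) * a ^ 4 * d ^ 4)
        ≤ cf u v + Gf ρ u v := by
  have hρ0 : 0 ≤ ρ := by linarith
  have hρ1 : ρ < 1 := by linarith
  obtain ⟨hh0, hh1, hc1, hc2⟩ := consts_top h0 h1
  have hzeta := zeta_top h0 h1
  have hlam0 : 0 ≤ Lam ρ := Lam_nonneg hρ0 hρ1.le
  obtain ⟨a, d0, ha0, ha1, hd, hua, hva, haeq⟩ := param huv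
  have hu1 : u ^ 2 < 1 := by
    have := abs_nonneg u
    rw [← sq_abs]; nlinarith
  have hupos : 0 < 1 - u ^ 2 := by linarith
  have hub := abs_lt.mp hu
  have hx0 := x0_avg hρ0 hρ1 hc2 hc1 huv hu
  rw [← haeq] at hx0
  have hLu := Lam_le_quartic (u := u) hub.1.le hub.2.le
  have hG2 := param_G2 (w := v ^ 2 / (1 - u ^ 2)) ha0 ha1 hd hua hva hu1 rfl
  have ha2 : a ^ 2 ≤ 1 := by nlinarith
  have hdd : |d0| ^ 2 = d0 ^ 2 := sq_abs d0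
  have hq0 : 0 ≤ d0 ^ 2 := sq_nonneg d0
  have hu2 : u ^ 2 = a ^ 2 * d0 ^ 2 := by rw [hua]; ring
  have hwD : v ^ 2 / (1 - u ^ 2) * (1 - u ^ 2) = v ^ 2 := div_mul_cancel₀ _ hupos.ne'
  have hda : |d0| ≤ a := abs_le_of_sq_le_sq hd ha0
  have huabs : |u| = a * |d0| := by rw [hua, abs_mul, abs_of_nonneg ha0]
  have hd4 : |d0| ^ 4 = (d0 ^ 2) ^ 2 := by
    have : |d0| ^ 4 = (|d0| ^ 2) ^ 2 := by ring
    rw [this, hdd]
  refine ⟨a, |d0|, ha0, ha1, abs_nonneg d0, hda, huabs, by rw [hdd]; exact hva, ?_, ?_⟩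
  · have k1 : (Real.log 2 - Lam ρ) * (a - (1 - v ^ 2 / (1 - u ^ 2)))
        ≤ (1 - ρ ^ 2) * (a - (1 - v ^ 2 / (1 - u ^ 2))) :=
      mul_le_mul_of_nonneg_right hc1 (by linarith)
    have k2 : (Real.log 2 - Lam ρ) * (1 - a)
        = (Real.log 2 - Lam ρ) * (1 - 2 * a + (1 - v ^ 2 / (1 - u ^ 2)))
          + (Real.log 2 - Lam ρ) * (a - (1 - v ^ 2 / (1 - u ^ 2))) := by ring
    rw [k2]
    linarith
  · have e1 : cf u v + Gf ρ u v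
        = Real.log 2 - Lam u - ((Lam (u + ρ * v) + Lam (u - ρ * v)) / 2 - Lam u) := by
      unfold cf Gf; ring
    rw [e1, hdd, hd4]
    have hge := atom_hi_alg2 hupos (sq_nonneg u) hwD hva hu2 hq0
    have hz0 : 0 ≤ 146 / 1000 - 312 / 1000 * (Real.log 2 - Lam ρ) := by linarith
    -- the key bound on the second difference
    have hS : (Lam (u + ρ * v) + Lam (u - ρ * v)) / 2 - Lam u
        ≤ Lam ρ * (v ^ 2 / (1 - u ^ 2))
          - (146 / 1000 - 312 / 1000 * (Real.log 2 - Lam ρ))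
            * ((1 - a ^ 2) * (a ^ 2 - 11 / 10 * d0 ^ 2)) := by
      rcases le_or_gt (11 / 10 * d0 ^ 2) (a ^ 2) with hcase | hcase
      · have her := eS_upper2 hρ0 hρ1.le huv hu
        have hxi := xi_alg (a := a) (d := d0) ha0 ha1 hcase
        have hD3 : 0 < (1 - u ^ 2) ^ 3 := by positivity
        have hX : (v ^ 2 / (1 - u ^ 2) - v ^ 4 * (1 + 3 * u ^ 2) / (1 - u ^ 2) ^ 3) * (1 - u ^ 2) ^ 3
            = v ^ 2 * (1 - u ^ 2) ^ 2 - (v ^ 2) ^ 2 * (1 + 3 * u ^ 2) := by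
          field_simp
        have hxi2 : (1 - a ^ 2) * (a ^ 2 - 11 / 10 * d0 ^ 2) * (1 - u ^ 2) ^ 3
            ≤ (v ^ 2 / (1 - u ^ 2) - v ^ 4 * (1 + 3 * u ^ 2) / (1 - u ^ 2) ^ 3) * (1 - u ^ 2) ^ 3 := by
          rw [hX, hva, hu2]
          have e3 : 1 + 3 * (a ^ 2 * d0 ^ 2) = 1 + 3 * a ^ 2 * d0 ^ 2 := by ring
          rw [e3]
          exact hxi
        have hxi3 : (1 - a ^ 2) * (a ^ 2 - 11 / 10 * d0 ^ 2)
            ≤ v ^ 2 / (1 - u ^ 2) - v ^ 4 * (1 + 3 * u ^ 2) / (1 - u ^ 2) ^ 3 :=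
          le_of_mul_le_mul_right hxi2 hD3
        have hXi0 : 0 ≤ (1 - a ^ 2) * (a ^ 2 - 11 / 10 * d0 ^ 2) :=
          mul_nonneg (by linarith) (by linarith)
        have m1 : (146 / 1000 - 312 / 1000 * (Real.log 2 - Lam ρ))
              * ((1 - a ^ 2) * (a ^ 2 - 11 / 10 * d0 ^ 2))
            ≤ (Lam ρ - ρ ^ 2 / 2)
              * (v ^ 2 / (1 - u ^ 2) - v ^ 4 * (1 + 3 * u ^ 2) / (1 - u ^ 2) ^ 3) :=
          mul_le_mul hzeta hxi3 hXi0 (le_trans hz0 hzeta)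
        have m2 : ρ ^ 2 / 2 * (v ^ 2 / (1 - u ^ 2))
              + (Lam ρ - ρ ^ 2 / 2) * (v ^ 4 * (1 + 3 * u ^ 2) / (1 - u ^ 2) ^ 3)
            = Lam ρ * (v ^ 2 / (1 - u ^ 2)) - (Lam ρ - ρ ^ 2 / 2)
              * (v ^ 2 / (1 - u ^ 2) - v ^ 4 * (1 + 3 * u ^ 2) / (1 - u ^ 2) ^ 3) := by ring
        rw [m2] at her
        linarith
      · have her := eS_upper hρ0 hρ1.le huv hu
        have hXi0 : (1 - a ^ 2) * (a ^ 2 - 11 / 10 * d0 ^ 2) ≤ 0 :=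
          mul_nonpos_of_nonneg_of_nonpos (by linarith) (by linarith)
        have m1 : (146 / 1000 - 312 / 1000 * (Real.log 2 - Lam ρ))
              * ((1 - a ^ 2) * (a ^ 2 - 11 / 10 * d0 ^ 2)) ≤ 0 :=
          mul_nonpos_of_nonneg_of_nonpos hz0 hXi0
        linarith
    have k1 : Lam ρ * (d0 ^ 2 * (1 - a ^ 2) ^ 2) ≤ Lam ρ * (1 - v ^ 2 / (1 - u ^ 2) - a ^ 2) :=
      mul_le_mul_of_nonneg_left hge hlam0
    have k2 : u ^ 2 / 2 + (Real.log 2 - 1 / 2) * u ^ 4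
        = a ^ 2 * d0 ^ 2 / 2 + (Real.log 2 - 1 / 2) * a ^ 4 * (d0 ^ 2) ^ 2 := by
      have : u ^ 4 = (u ^ 2) ^ 2 := by ring
      rw [this, hu2]; ring
    have k3 : Lam ρ * (a ^ 2 + d0 ^ 2 * (1 - a ^ 2) ^ 2)
        = Lam ρ * a ^ 2 + Lam ρ * (d0 ^ 2 * (1 - a ^ 2) ^ 2) := by ring
    have k4 : Lam ρ * (1 - v ^ 2 / (1 - u ^ 2) - a ^ 2)
        = Lam ρ - Lam ρ * (v ^ 2 / (1 - u ^ 2)) - Lam ρ * a ^ 2 := by ring
    have k5 : (146 / 1000 - 312 / 1000 * (Real.log 2 - Lam ρ)) * (1 - a ^ 2)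
          * (a ^ 2 - 11 / 10 * d0 ^ 2)
        = (146 / 1000 - 312 / 1000 * (Real.log 2 - Lam ρ))
          * ((1 - a ^ 2) * (a ^ 2 - 11 / 10 * d0 ^ 2)) := by ring
    rw [k3, k5]
    rw [k2] at hLu
    linarith

/-- Compare `PA_hi`.  If `|u| = 1` then `v = 0` and the right side is `≥ 0`.  Otherwise take `a, d` from `atom_top`, put `h = log 2 - Lam ρ`, `lam = Lam ρ`,
`R = h + 2 lam J`, `T = lam J^2 (1 - |u|) = lam J^2 (1 - a d) ≥ 0`, `x = Gf/h`, `c = cf u v ≥ 0`, `x1 = 1 - a`, `K0` the left side of the last inequality of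
`atom_top`.  By `psi_mono2` and `PT_poly` (times `1 - a ≥ 0`, with `L = log 2`)
`x (R x + 2 T + 2 c) ≥ x1 ((R - 2h) x1 + 2 T + 2 K0) ≥ R (1-a)(1+a)(1-d^2) = R v^2`; divide by `R`. -/
theorem PA_top {ρ u v J : ℝ} (h0 : 4 / 5 ≤ ρ) (h1 : ρ ≤ 7 / 8) (huv : |u| + |v| ≤ 1)
    (hJ0 : 0 ≤ J) (hJ1 : J ≤ 17 / 25) :
    v ^ 2 ≤ (Gf ρ u v / (Real.log 2 - Lam ρ)) *
      (Gf ρ u v / (Real.log 2 - Lam ρ)
        + 2 * (Lam ρ * J ^ 2 * (1 - |u|) + cf u v) / (Real.log 2 - Lam ρ + 2 * Lam ρ * J)) := by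
  rcases lt_or_ge |u| 1 with hu | hu
  · obtain ⟨a, d, ha0, ha1, hd0, hda, hua, hva, hG, hK⟩ := atom_top h0 h1 huv hu
    have hρ0 : 0 ≤ ρ := by linarith
    have hρ1 : ρ < 1 := by linarith
    obtain ⟨hh0, hh1, hc1, hc2⟩ := consts_top h0 h1
    have hlam0 : 0 ≤ Lam ρ := Lam_nonneg hρ0 hρ1.le
    have hL0 : (0.6931471 : ℝ) < Real.log 2 := by
      have := Real.log_two_gt_d9; linarith
    have hL1 : Real.log 2 < 0.6931472 := by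
      have := Real.log_two_lt_d9; linarith
    have hc0 := cf_nonneg huv
    set h := Real.log 2 - Lam ρ with hh
    have hlam : Lam ρ = Real.log 2 - h := by rw [hh]; ring
    have hhpos : 0 < h := by linarith
    have hlJ : 0 ≤ 2 * Lam ρ * J := by positivity
    have hR : 0 < h + 2 * Lam ρ * J := by linarith
    set x := Gf ρ u v / h with hx
    have hhx : h * x = Gf ρ u v := by rw [hx]; field_simp
    have hx1 : 0 ≤ 1 - a := by linarith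
    have hx1x : 1 - a ≤ x := by
      rw [hx, le_div_iff₀ hhpos]; linarith
    have had : 0 ≤ 1 - a * d := by
      have : a * d = |u| := hua.symm
      rw [this]; linarith
    have hT : 0 ≤ Lam ρ * J ^ 2 * (1 - a * d) := by positivity
    have hmono := psi_mono2 (h := h) (R := h + 2 * Lam ρ * J) (T := Lam ρ * J ^ 2 * (1 - a * d))
      (x := x) (x1 := 1 - a) (c := cf u v)
      (K0 := h + Lam ρ * (a ^ 2 + d ^ 2 * (1 - a ^ 2) ^ 2)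
          + (146 / 1000 - 312 / 1000 * h) * (1 - a ^ 2) * (a ^ 2 - 11 / 10 * d ^ 2)
          - (a ^ 2 * d ^ 2 / 2 + (Real.log 2 - 1 / 2) * a ^ 4 * d ^ 4))
      hhpos.le (by linarith) hT hx1 hx1x hc0 (by rw [hhx]; exact hK)
    have hpoly := PT_poly (L := Real.log 2) (h := h) (a := a) (d := d) (J := J)
      hL0 hL1 hh0 hh1 ha0 ha1 hd0 hda hJ0 hJ1
    rw [← hlam] at hpoly
    have hpoly2 := mul_le_mul_of_nonneg_left hpoly hx1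
    have hfin : v ^ 2 * (h + 2 * Lam ρ * J)
        ≤ x * ((h + 2 * Lam ρ * J) * x + 2 * (Lam ρ * J ^ 2 * (1 - a * d)) + 2 * cf u v) := by
      refine le_trans (le_of_eq ?_) (le_trans hpoly2 (le_trans (le_of_eq ?_) hmono))
      · rw [hva]; ring
      · ring
    have hrw : x * (x + 2 * (Lam ρ * J ^ 2 * (1 - |u|) + cf u v) / (h + 2 * Lam ρ * J))
        = x * ((h + 2 * Lam ρ * J) * x + 2 * (Lam ρ * J ^ 2 * (1 - a * d)) + 2 * cf u v)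
            / (h + 2 * Lam ρ * J) := by
      rw [hua]
      field_simp
      ring
    rw [hrw, le_div_iff₀ hR]
    exact hfin
  · have hv := v_zero_of huv hu
    rw [hv, Gf_zero]; simp

end Vale.Agent.Lib.P322.Pot
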