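import Vale.Agent.Lib.P322.Pot.Hi.Star

/-!
P322, potential method, range `4/5 ≤ ρ ≤ 7/8`.  Fourth-order refinements of `Lam (l t) ≤ l^2 Lam t` and an upper bound for `Gf`.
-/

namespace Vale.Agent.Lib.P322.Pot

open Real Finset Vale.Agent.Lib.P322

/-- `E y = y Lam1 y + y^2 - 4 Lam y` has `E 0 = 0`, `E' y = y/(1-y^2) + 2 y - 3 Lam1 y`, `E' 0 = 0`,
`E'' y = 2 y^4/(1-y^2)^2 ≥ 0` (`nonneg_of_deriv2`, as in `Lam_ge_sq`). -/
lemma Lam_quartic_aux {y : ℝ} (h0 : 0 ≤ y) (h1 : y < 1) : 4 * Lam y ≤ y * Lam1 y + y ^ 2 := by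
  have key : ∀ s ∈ Set.Ico (0:ℝ) 1, 0 ≤ s * Lam1 s + s ^ 2 - 4 * Lam s := by
    apply nonneg_of_deriv2 (D1 := fun s => s / (1 - s ^ 2) + 2 * s - 3 * Lam1 s)
      (D2 := fun s => 2 * s ^ 4 / (1 - s ^ 2) ^ 2)
    · intro s hs
      have hs2 : (1 - s ^ 2) ≠ 0 := by nlinarith [hs.1, hs.2]
      have a := (hasDerivAt_Lam (t := s) (by linarith [hs.1]) hs.2).const_mul 4
      have b := (hasDerivAt_id s).mul (hasDerivAt_Lam1 (t := s) (by linarith [hs.1]) hs.2)
      have c : HasDerivAt (fun s : ℝ => s ^ 2) (2 * s) s := by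
        exact ((hasDerivAt_id s).pow 2).congr_deriv (by simp)
      refine ((b.add c).sub a).congr_deriv ?_
      simp only [id]
      field_simp
      ring
    · intro s hs
      have hs2 : (1 - s ^ 2) ≠ 0 := by nlinarith [hs.1, hs.2]
      have a := (hasDerivAt_Lam1 (t := s) (by linarith [hs.1]) hs.2).const_mul 3
      have d : HasDerivAt (fun s : ℝ => 1 - s ^ 2) (-(2 * s)) s := by
        exact (((hasDerivAt_id s).pow 2).const_sub 1).congr_deriv (by simp)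
      have b := (hasDerivAt_id s).div d hs2
      have c : HasDerivAt (fun s : ℝ => 2 * s) 2 s := by
        exact ((hasDerivAt_id s).const_mul 2).congr_deriv (by simp)
      refine ((b.add c).sub a).congr_deriv ?_
      simp only [id]
      field_simp
      ring
    · intro s hs
      positivity
    · simp
    · simp
  have := key y ⟨h0, h1⟩
  linarith

private lemma Lam_mul_quartic_pos {l t : ℝ} (hl0 : 0 ≤ l) (hl1 : l ≤ 1) (ht0 : 0 ≤ t)
    (ht1 : t ≤ 1) : Lam (l * t) ≤ (l * t) ^ 2 / 2 + l ^ 4 * (Lam t - t ^ 2 / 2) := by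
  have key : ∀ s ∈ Set.Icc (0:ℝ) 1,
      0 ≤ l ^ 4 * (Lam s - s ^ 2 / 2) - (Lam (l * s) - (l * s) ^ 2 / 2) := by
    apply nonneg_Icc_of_Ico
    · have c1 : Continuous fun s : ℝ => Lam (l * s) := continuous_Lam.comp (by fun_prop)
      exact ((continuous_Lam.sub (by fun_prop)).const_mul (l ^ 4)).sub (c1.sub (by fun_prop))
    · apply nonneg_of_deriv2
        (D1 := fun s => l ^ 4 * (Lam1 s - s) - (Lam1 (l * s) * l - l ^ 2 * s))
        (D2 := fun s => l ^ 4 * (1 / (1 - s ^ 2) - 1) - ((1 / (1 - (l * s) ^ 2)) * l * l - l ^ 2))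
      · intro s hs
        have hls : l * s < 1 := by nlinarith [hs.1, hs.2]
        have hls0 : -1 < l * s := by nlinarith [hs.1, hs.2, mul_nonneg hl0 hs.1]
        have a := hasDerivAt_Lam (t := s) (by linarith [hs.1]) hs.2
        have a2 : HasDerivAt (fun s : ℝ => s ^ 2 / 2) s s := by
          exact (((hasDerivAt_id s).pow 2).div_const 2).congr_deriv (by simp)
        have b : HasDerivAt (fun s => Lam (l * s)) (Lam1 (l * s) * l) s := by
          have := (hasDerivAt_Lam hls0 hls).comp s (((hasDerivAt_id s).const_mul l))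
          simpa [Function.comp_def] using this
        have b2 : HasDerivAt (fun s : ℝ => (l * s) ^ 2 / 2) (l ^ 2 * s) s := by
          refine ((((hasDerivAt_id s).const_mul l).pow 2).div_const 2).congr_deriv ?_
          simp only [id]
          ring
        exact ((a.sub a2).const_mul (l ^ 4)).sub (b.sub b2)
      · intro s hs
        have hls : l * s < 1 := by nlinarith [hs.1, hs.2]
        have hls0 : -1 < l * s := by nlinarith [hs.1, hs.2, mul_nonneg hl0 hs.1]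
        have a := hasDerivAt_Lam1 (t := s) (by linarith [hs.1]) hs.2
        have b : HasDerivAt (fun s => Lam1 (l * s) * l) ((1 / (1 - (l * s) ^ 2)) * l * l) s := by
          have := ((hasDerivAt_Lam1 hls0 hls).comp s (((hasDerivAt_id s).const_mul l))).mul_const l
          simpa [Function.comp_def] using this
        have b2 : HasDerivAt (fun s : ℝ => l ^ 2 * s) (l ^ 2) s := by
          exact ((hasDerivAt_id s).const_mul (l ^ 2)).congr_deriv (by simp)
        exact ((a.sub (hasDerivAt_id s)).const_mul (l ^ 4)).sub (b.sub b2)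
      · intro s hs
        have hs2 : 0 < 1 - s ^ 2 := by nlinarith [hs.1, hs.2]
        have hle : (l * s) ^ 2 ≤ s ^ 2 := by
          have : l * s ≤ s := by nlinarith [hs.1]
          exact pow_le_pow_left₀ (mul_nonneg hl0 hs.1) this 2
        have hls2 : 0 < 1 - (l * s) ^ 2 := by linarith
        have e1 : 1 / (1 - s ^ 2) - 1 = s ^ 2 * (1 / (1 - s ^ 2)) := by
          field_simp
          ring
        have e2 : (1 / (1 - (l * s) ^ 2)) * l * l - l ^ 2
            = l ^ 4 * (s ^ 2 * (1 / (1 - (l * s) ^ 2))) := by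
          have hne : (1 - (l * s) ^ 2) ≠ 0 := hls2.ne'
          rw [eq_comm, ← sub_eq_zero]
          have : l ^ 4 * (s ^ 2 * (1 / (1 - (l * s) ^ 2))) - (1 / (1 - (l * s) ^ 2) * l * l - l ^ 2)
              = (l ^ 2 * ((l * s) ^ 2 - 1 + (1 - (l * s) ^ 2))) / (1 - (l * s) ^ 2) := by
            rw [eq_div_iff hne]
            have h1 : 1 / (1 - (l * s) ^ 2) * (1 - (l * s) ^ 2) = 1 := by
              rw [one_div, inv_mul_cancel₀ hne]
            calc (l ^ 4 * (s ^ 2 * (1 / (1 - (l * s) ^ 2)))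
                  - (1 / (1 - (l * s) ^ 2) * l * l - l ^ 2)) * (1 - (l * s) ^ 2)
                = (l ^ 4 * s ^ 2 - l ^ 2) * (1 / (1 - (l * s) ^ 2) * (1 - (l * s) ^ 2))
                    + l ^ 2 * (1 - (l * s) ^ 2) := by ring
              _ = l ^ 2 * ((l * s) ^ 2 - 1 + (1 - (l * s) ^ 2)) := by rw [h1]; ring
          rw [this]
          have : (l * s) ^ 2 - 1 + (1 - (l * s) ^ 2) = 0 := by ring
          rw [this]
          simp
        rw [e1, e2, ← mul_sub, ← mul_sub]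
        have h3 : 1 / (1 - (l * s) ^ 2) ≤ 1 / (1 - s ^ 2) :=
          one_div_le_one_div_of_le hs2 (by linarith)
        have h4 : 0 ≤ 1 / (1 - s ^ 2) - 1 / (1 - (l * s) ^ 2) := by linarith
        positivity
      · simp
      · simp
  have := key t ⟨ht0, ht1⟩
  linarith

/-- With `ψ l = Lam (l t) - (l t)^2/2`, `Lam_quartic_aux` at `y = l t` says `4 ψ l ≤ l ψ' l`, so `ψ l / l^4` is nondecreasing on `(0, 1]`
(first for `0 ≤ t < 1`; `t = 1` by continuity of `Lam`; `t < 0` by evenness `Lam_neg`; `l = 0` is trivial). -/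
lemma Lam_mul_quartic {l t : ℝ} (hl0 : 0 ≤ l) (hl1 : l ≤ 1) (ht0 : -1 ≤ t) (ht1 : t ≤ 1) :
    Lam (l * t) ≤ (l * t) ^ 2 / 2 + l ^ 4 * (Lam t - t ^ 2 / 2) := by
  rcases le_total 0 t with h | h
  · exact Lam_mul_quartic_pos hl0 hl1 h ht1
  · have := Lam_mul_quartic_pos (t := -t) hl0 hl1 (by linarith) (by linarith)
    rw [show l * -t = -(l * t) by ring, Lam_neg, Lam_neg] at this
    have e : (-(l * t)) ^ 2 = (l * t) ^ 2 := by ring
    have e' : (-t) ^ 2 = t ^ 2 := by ring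
    rw [e, e'] at this
    exact this

/-- `Lam_mul_quartic` with `l = |u|`, `t = 1` (`Lam_one`, `Lam_neg`). -/
lemma Lam_le_quartic {u : ℝ} (h0 : -1 ≤ u) (h1 : u ≤ 1) :
    Lam u ≤ u ^ 2 / 2 + (Real.log 2 - 1 / 2) * u ^ 4 := by
  have habs : |u| ≤ 1 := abs_le.2 ⟨h0, h1⟩
  have := Lam_mul_quartic (l := |u|) (t := 1) (abs_nonneg u) habs (by norm_num) (by norm_num)
  rw [mul_one, Lam_one] at this
  have e1 : Lam |u| = Lam u := by
    rcases abs_cases u with h | h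
    · rw [h.1]
    · rw [h.1, Lam_neg]
  have e2 : |u| ^ 2 = u ^ 2 := sq_abs u
  have e4 : |u| ^ 4 = u ^ 4 := by
    have : |u| ^ 4 = (|u| ^ 2) ^ 2 := by ring
    rw [this, e2]
    ring
  rw [e1, e2, e4] at this
  linarith

/-- fourth-order chord inequality -/
lemma chord_quartic {a c r : ℝ} (ha : 0 < a) (hc : |c| ≤ a) (hr0 : 0 ≤ r) (hr1 : r ≤ 1) :
    a * Lam (r * c / a) ≤ r ^ 2 / 2 * (c ^ 2 / a) + (Lam r - r ^ 2 / 2) * (c ^ 4 / a ^ 3) := by
  have h1 : Lam (r * c / a) = Lam (|c| / a * r) := by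
    rcases abs_cases c with ⟨h, _⟩ | ⟨h, _⟩
    · rw [h]; congr 1; ring
    · rw [h, ← Lam_neg]; congr 1; ring
  have h2 : Lam (|c| / a * r) ≤ (|c| / a * r) ^ 2 / 2 + (|c| / a) ^ 4 * (Lam r - r ^ 2 / 2) :=
    Lam_mul_quartic (by positivity) (by rw [div_le_one ha]; exact hc) (by linarith) hr1
  rw [h1]
  have e2 : |c| ^ 2 = c ^ 2 := sq_abs c
  have e4 : |c| ^ 4 = c ^ 4 := by
    have : |c| ^ 4 = (|c| ^ 2) ^ 2 := by ring
    rw [this, e2]
    ring
  calc a * Lam (|c| / a * r)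
      ≤ a * ((|c| / a * r) ^ 2 / 2 + (|c| / a) ^ 4 * (Lam r - r ^ 2 / 2)) :=
        mul_le_mul_of_nonneg_left h2 ha.le
    _ = r ^ 2 / 2 * (c ^ 2 / a) + (Lam r - r ^ 2 / 2) * (c ^ 4 / a ^ 3) := by
        rw [mul_pow, div_pow, div_pow, e2, e4]
        field_simp

/-- Same scheme as `eS_upper`: `Lam_pair_eq` with `z = ρ v`, then `Lam_mul_quartic` with `l = |v|/(1 ± u)`, `t = ρ` (evenness), and
`((1+u) r1^2 + (1-u) r2^2)/2 = v^2/(1-u^2)`, `((1+u) r1^4 + (1-u) r2^4)/2 = v^4 (1 + 3u^2)/(1-u^2)^3` for `r1 = v/(1+u)`, `r2 = v/(1-u)`. -/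
lemma eS_upper2 {ρ u v : ℝ} (hρ0 : 0 ≤ ρ) (hρ1 : ρ ≤ 1) (huv : |u| + |v| ≤ 1) (hu : |u| < 1) :
    (Lam (u + ρ * v) + Lam (u - ρ * v)) / 2 - Lam u ≤
      ρ ^ 2 / 2 * (v ^ 2 / (1 - u ^ 2))
        + (Lam ρ - ρ ^ 2 / 2) * (v ^ 4 * (1 + 3 * u ^ 2) / (1 - u ^ 2) ^ 3) := by
  obtain ⟨h1, h2⟩ := abs_lt.mp hu
  have hp : 0 < 1 + u := by linarith
  have hq : 0 < 1 - u := by linarith
  have hv1 : |v| ≤ 1 + u := by have := neg_abs_le u; linarith
  have hv2 : |v| ≤ 1 - u := by have := le_abs_self u; linarith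
  rw [Lam_pair_eq hu]
  have c1 := chord_quartic hp hv1 hρ0 hρ1
  have c2 := chord_quartic hq hv2 hρ0 hρ1
  have key : (v ^ 2 / (1 + u) + v ^ 2 / (1 - u)) / 2 = v ^ 2 / (1 - u ^ 2) := by
    have : (1 - u ^ 2) = (1 + u) * (1 - u) := by ring
    rw [this]
    field_simp
    ring
  have key4 : (v ^ 4 / (1 + u) ^ 3 + v ^ 4 / (1 - u) ^ 3) / 2
      = v ^ 4 * (1 + 3 * u ^ 2) / (1 - u ^ 2) ^ 3 := by
    have : (1 - u ^ 2) = (1 + u) * (1 - u) := by ring
    rw [this]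
    field_simp
    ring
  rw [← key, ← key4]
  linarith [c1, c2]

lemma hasDerivAt_Lam_scaled {k s : ℝ} (hk0 : 0 ≤ k) (hk1 : k ≤ 1) (hs0 : 0 ≤ s) (hs1 : s < 1) :
    HasDerivAt (fun s => Lam (k * s)) (Lam1 (k * s) * k) s := by
  have hls : k * s < 1 := by nlinarith
  have hls0 : -1 < k * s := by nlinarith [mul_nonneg hk0 hs0]
  have := (hasDerivAt_Lam hls0 hls).comp s (((hasDerivAt_id s).const_mul k))
  simpa [Function.comp_def] using this

lemma hasDerivAt_Lam1_scaled {k s : ℝ} (hk0 : 0 ≤ k) (hk1 : k ≤ 1) (hs0 : 0 ≤ s) (hs1 : s < 1) :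
    HasDerivAt (fun s => Lam1 (k * s) * k) ((1 / (1 - (k * s) ^ 2)) * k * k) s := by
  have hls : k * s < 1 := by nlinarith
  have hls0 : -1 < k * s := by nlinarith [mul_nonneg hk0 hs0]
  have := ((hasDerivAt_Lam1 hls0 hls).comp s (((hasDerivAt_id s).const_mul k))).mul_const k
  simpa [Function.comp_def] using this

/-- the second derivative comparison behind `Lam_sub_le` -/
lemma chi_mono_aux {q a b : ℝ} (hq0 : 0 ≤ q) (hq1 : q ≤ 1) (hb0 : 0 ≤ b) (hba : b ≤ a)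
    (ha1 : a < 1) :
    q * (1 / (1 - q * a) - 1 / (1 - q * b)) ≤ 1 / (1 - a) - 1 / (1 - b) := by
  have ha0 : 0 ≤ a := le_trans hb0 hba
  have p1 : 0 < 1 - a := by linarith
  have p2 : 0 < 1 - b := by linarith
  have p3 : 1 - a ≤ 1 - q * a := by nlinarith
  have p4 : 1 - b ≤ 1 - q * b := by nlinarith
  have p5 : 0 < 1 - q * a := by linarith
  have p6 : 0 < 1 - q * b := by linarith
  have eX : 1 / (1 - a) - 1 / (1 - b) = (a - b) * ((1 / (1 - a)) * (1 / (1 - b))) := by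
    field_simp
    ring
  have eY : q * (1 / (1 - q * a) - 1 / (1 - q * b))
      = (a - b) * (q ^ 2 * ((1 / (1 - q * a)) * (1 / (1 - q * b)))) := by
    field_simp
    ring
  rw [eX, eY]
  have i1 : 1 / (1 - q * a) ≤ 1 / (1 - a) := one_div_le_one_div_of_le p1 p3
  have i2 : 1 / (1 - q * b) ≤ 1 / (1 - b) := one_div_le_one_div_of_le p2 p4
  have n1 : 0 ≤ 1 / (1 - q * a) := by positivity
  have n2 : 0 ≤ 1 / (1 - q * b) := by positivity
  have n3 : 0 ≤ 1 / (1 - a) := by positivity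
  have i3 : (1 / (1 - q * a)) * (1 / (1 - q * b)) ≤ (1 / (1 - a)) * (1 / (1 - b)) :=
    mul_le_mul i1 i2 n2 n3
  have n4 : 0 ≤ (1 / (1 - q * a)) * (1 / (1 - q * b)) := mul_nonneg n1 n2
  have q2 : q ^ 2 ≤ 1 := by nlinarith
  have i4 : q ^ 2 * ((1 / (1 - q * a)) * (1 / (1 - q * b)))
      ≤ (1 / (1 - a)) * (1 / (1 - b)) := by
    calc q ^ 2 * ((1 / (1 - q * a)) * (1 / (1 - q * b)))
        ≤ 1 * ((1 / (1 - q * a)) * (1 / (1 - q * b))) := mul_le_mul_of_nonneg_right q2 n4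
      _ = (1 / (1 - q * a)) * (1 / (1 - q * b)) := one_mul _
      _ ≤ _ := i3
  exact mul_le_mul_of_nonneg_left i4 (by linarith)

lemma Lam_sub_le_pos {ρ l : ℝ} (hρ0 : 0 ≤ ρ) (hρ1 : ρ ≤ 1) (hl0 : 0 ≤ l) (hl1 : l ≤ 1) :
    Lam l - Lam (ρ * l) ≤ (Real.log 2 - Lam ρ) * l ^ 2 := by
  have hm0 : 0 ≤ ρ * l := mul_nonneg hρ0 hl0
  have hm1 : ρ * l ≤ 1 := by nlinarith
  have key : ∀ s ∈ Set.Icc (0:ℝ) 1,
      0 ≤ l ^ 2 * (Lam s - Lam (ρ * s)) - (Lam (l * s) - Lam (ρ * l * s)) := by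
    apply nonneg_Icc_of_Ico
    · have c1 : Continuous fun s : ℝ => Lam (l * s) := continuous_Lam.comp (by fun_prop)
      have c2 : Continuous fun s : ℝ => Lam (ρ * s) := continuous_Lam.comp (by fun_prop)
      have c3 : Continuous fun s : ℝ => Lam (ρ * l * s) := continuous_Lam.comp (by fun_prop)
      exact ((continuous_Lam.sub c2).const_mul (l ^ 2)).sub (c1.sub c3)
    · apply nonneg_of_deriv2
        (D1 := fun s => l ^ 2 * (Lam1 s - Lam1 (ρ * s) * ρ)
          - (Lam1 (l * s) * l - Lam1 (ρ * l * s) * (ρ * l)))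
        (D2 := fun s => l ^ 2 * (1 / (1 - s ^ 2) - (1 / (1 - (ρ * s) ^ 2)) * ρ * ρ)
          - ((1 / (1 - (l * s) ^ 2)) * l * l
            - (1 / (1 - (ρ * l * s) ^ 2)) * (ρ * l) * (ρ * l)))
      · intro s hs
        have a := hasDerivAt_Lam (t := s) (by linarith [hs.1]) hs.2
        have b := hasDerivAt_Lam_scaled hρ0 hρ1 hs.1 hs.2
        have c := hasDerivAt_Lam_scaled hl0 hl1 hs.1 hs.2
        have d := hasDerivAt_Lam_scaled hm0 hm1 hs.1 hs.2
        exact ((a.sub b).const_mul (l ^ 2)).sub (c.sub d)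
      · intro s hs
        have a := hasDerivAt_Lam1 (t := s) (by linarith [hs.1]) hs.2
        have b := hasDerivAt_Lam1_scaled hρ0 hρ1 hs.1 hs.2
        have c := hasDerivAt_Lam1_scaled hl0 hl1 hs.1 hs.2
        have d := hasDerivAt_Lam1_scaled hm0 hm1 hs.1 hs.2
        exact ((a.sub b).const_mul (l ^ 2)).sub (c.sub d)
      · intro s hs
        have hs2 : s ^ 2 < 1 := by nlinarith [hs.1, hs.2]
        have hle : (l * s) ^ 2 ≤ s ^ 2 := by
          have : l * s ≤ s := by nlinarith [hs.1]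
          exact pow_le_pow_left₀ (mul_nonneg hl0 hs.1) this 2
        have hq1 : ρ ^ 2 ≤ 1 := by nlinarith
        have := chi_mono_aux (q := ρ ^ 2) (a := s ^ 2) (b := (l * s) ^ 2) (by positivity) hq1
          (by positivity) hle hs2
        have e1 : ρ ^ 2 * s ^ 2 = (ρ * s) ^ 2 := by ring
        have e2 : ρ ^ 2 * (l * s) ^ 2 = (ρ * l * s) ^ 2 := by ring
        rw [e1, e2] at this
        have hl2 : 0 ≤ l ^ 2 := by positivity
        have h5 := mul_le_mul_of_nonneg_left this hl2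
        have e3 : l ^ 2 * (1 / (1 - s ^ 2) - (1 / (1 - (ρ * s) ^ 2)) * ρ * ρ)
            - ((1 / (1 - (l * s) ^ 2)) * l * l
              - (1 / (1 - (ρ * l * s) ^ 2)) * (ρ * l) * (ρ * l))
            = l ^ 2 * (1 / (1 - s ^ 2) - 1 / (1 - (l * s) ^ 2))
              - l ^ 2 * (ρ ^ 2 * (1 / (1 - (ρ * s) ^ 2) - 1 / (1 - (ρ * l * s) ^ 2))) := by
          ring
        rw [e3]
        linarith
      · simp
      · simp
  have := key 1 ⟨by norm_num, le_refl 1⟩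
  rw [mul_one, mul_one, mul_one, Lam_one] at this
  linarith

/-- `E y = y Lam1 y - 2 Lam y` is nondecreasing on `[0,1)` (`E' y = y/(1-y^2) - Lam1 y ≥ 0`), so `ψ r = Lam r - Lam (ρ r)` satisfies
`2 ψ r ≤ r ψ' r`, hence `ψ r / r^2` is nondecreasing on `(0,1]` and `ψ r ≤ r^2 ψ 1`. -/
lemma Lam_sub_le {ρ r : ℝ} (hρ0 : 0 ≤ ρ) (hρ1 : ρ ≤ 1) (hr0 : -1 ≤ r) (hr1 : r ≤ 1) :
    Lam r - Lam (ρ * r) ≤ (Real.log 2 - Lam ρ) * r ^ 2 := by
  have habs : |r| ≤ 1 := abs_le.2 ⟨hr0, hr1⟩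
  have := Lam_sub_le_pos hρ0 hρ1 (abs_nonneg r) habs
  have e1 : Lam |r| = Lam r := by
    rcases abs_cases r with h | h
    · rw [h.1]
    · rw [h.1, Lam_neg]
  have e3 : Lam (ρ * |r|) = Lam (ρ * r) := by
    rcases abs_cases r with h | h
    · rw [h.1]
    · rw [h.1, mul_neg, Lam_neg]
  have e2 : |r| ^ 2 = r ^ 2 := sq_abs r
  rw [e1, e2, e3] at this
  exact this

/-- If `|u| = 1` then `v = 0` and `Gf = 0`.  Otherwise, as in `x0_avg`, `Gf ρ u v = ((1+u) (Lam r1 - Lam (ρ r1)) + (1-u) (Lam r2 - Lam (ρ r2)))/2`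
with `r1 = v/(1+u)`, `r2 = v/(1-u)`; by `Lam_sub_le` this is `≤ h v^2/(1-u^2) ≤ h (1-|u|)^2/(1-u^2) = h (1-|u|)/(1+|u|) ≤ h (1-|u|)`. -/
lemma Gf_le_one_sub_abs {ρ u v : ℝ} (hρ0 : 0 ≤ ρ) (hρ1 : ρ ≤ 1) (huv : |u| + |v| ≤ 1) :
    Gf ρ u v ≤ (Real.log 2 - Lam ρ) * (1 - |u|) := by
  have hh : 0 ≤ Real.log 2 - Lam ρ := by
    have := Lam_le_log_two (t := ρ) (by linarith) hρ1
    linarith
  have hv0 := abs_nonneg v
  by_cases hu : |u| < 1
  · obtain ⟨h1, h2⟩ := abs_lt.mp hu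
    have hp : 0 < 1 + u := by linarith
    have hq : 0 < 1 - u := by linarith
    have hv1 : |v| ≤ 1 + u := by have := neg_abs_le u; linarith
    have hv2 : |v| ≤ 1 - u := by have := le_abs_self u; linarith
    obtain ⟨b1, b2⟩ := abs_le.mp hv1
    obtain ⟨b3, b4⟩ := abs_le.mp hv2
    have r1a : -1 ≤ v / (1 + u) := by rw [le_div_iff₀ hp]; linarith
    have r1b : v / (1 + u) ≤ 1 := by rw [div_le_one hp]; exact b2
    have r2a : -1 ≤ v / (1 - u) := by rw [le_div_iff₀ hq]; linarith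
    have r2b : v / (1 - u) ≤ 1 := by rw [div_le_one hq]; exact b4
    have Xp := Lam_sub_le (r := v / (1 + u)) hρ0 hρ1 r1a r1b
    have Xq := Lam_sub_le (r := v / (1 - u)) hρ0 hρ1 r2a r2b
    have eG : Gf ρ u v = ((1 + u) * Lam (v / (1 + u)) + (1 - u) * Lam (v / (1 - u))) / 2
        - ((1 + u) * Lam (ρ * (v / (1 + u))) + (1 - u) * Lam (ρ * (v / (1 - u)))) / 2 := by
      have e1 := Lam_pair_eq (u := u) (z := v) hu
      have e2 := Lam_pair_eq (u := u) (z := ρ * v) hu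
      rw [mul_div_assoc, mul_div_assoc] at e2
      unfold Gf
      linarith
    have key : ((1 + u) * (v / (1 + u)) ^ 2 + (1 - u) * (v / (1 - u)) ^ 2) / 2
        = v ^ 2 / (1 - u ^ 2) := by
      have : (1 - u ^ 2) = (1 + u) * (1 - u) := by ring
      rw [this]
      field_simp
      ring
    have m1 := mul_le_mul_of_nonneg_left Xp hp.le
    have m2 := mul_le_mul_of_nonneg_left Xq hq.le
    have hG : Gf ρ u v ≤ (Real.log 2 - Lam ρ) * (v ^ 2 / (1 - u ^ 2)) := by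
      rw [eG, ← key]
      generalize Real.log 2 - Lam ρ = h at m1 m2 ⊢
      nlinarith [m1, m2]
    have hu2 : 0 < 1 - u ^ 2 := by nlinarith
    have hw0 := abs_nonneg u
    have e2 : |u| ^ 2 = u ^ 2 := sq_abs u
    have ev : |v| ^ 2 = v ^ 2 := sq_abs v
    have hfrac : v ^ 2 / (1 - u ^ 2) ≤ 1 - |u| := by
      rw [div_le_iff₀ hu2, ← e2, ← ev]
      have hvw : |v| ≤ 1 - |u| := by linarith
      have h3 : |v| ^ 2 ≤ (1 - |u|) ^ 2 := pow_le_pow_left₀ hv0 hvw 2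
      have h4 : (1 - |u|) ^ 2 ≤ (1 - |u|) * (1 - |u| ^ 2) := by
        have : (1 - |u|) * (1 - |u| ^ 2) - (1 - |u|) ^ 2 = (1 - |u|) ^ 2 * |u| := by ring
        have h5 : 0 ≤ (1 - |u|) ^ 2 * |u| := by positivity
        linarith
      linarith
    exact le_trans hG (mul_le_mul_of_nonneg_left hfrac hh)
  · have hu1 : |u| = 1 := by linarith [not_lt.mp hu]
    have hv : v = 0 := by
      have : |v| = 0 := by linarith
      exact abs_eq_zero.mp this
    subst hv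
    rw [hu1]
    unfold Gf
    simp

end Vale.Agent.Lib.P322.Pot
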