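import Vale.Agent.Lib.P322.Pot.Top.Atom

/-!
P322, potential method, range `4/5 ≤ ρ ≤ 7/8`.  The one-coordinate inequality and the Courtade-Kumar inequality for `1/16 ≤ ε ≤ 1/2`.
-/

namespace Vale.Agent.Lib.P322.Pot

open Real Finset Vale.Agent.Lib.P322

/-- Scalar bounds used for `SC_top`. -/
lemma star_top_aux {L lam J : ℝ} (hL : L < 0.6931472) (hc1 : 233 / 1000 ≤ L - lam)
    (hc2 : L - lam ≤ 326 / 1000) (hl0 : 0 ≤ lam) (hJ0 : 0 ≤ J) (hJ : J ≤ 17 / 25) :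
    L - lam + 2 * lam * J ≤ 1 ∧ L - lam + (L - lam) * J + 2 * lam * J ^ 2 ≤ 1 := by
  have e1 : lam * J ≤ lam * (17 / 25) := mul_le_mul_of_nonneg_left hJ hl0
  have e2 : (L - lam) * J ≤ (L - lam) * (17 / 25) :=
    mul_le_mul_of_nonneg_left hJ (by linarith)
  have e3 : J ^ 2 ≤ (17 / 25) ^ 2 := pow_le_pow_left₀ hJ0 hJ 2
  have e4 : lam * J ^ 2 ≤ lam * (17 / 25) ^ 2 := mul_le_mul_of_nonneg_left e3 hl0
  constructor
  · linarith
  · linarith

/-- Copy the proof of `star_hi` up to the case `b < 1 - J`; symbols as there (`μ`, `ν`, `lam`, `h`, `C`, `b`, `J`, `ub J = Lam μ + C`), `J ≤ 17/25` by `Jc_top`.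
In the case `b < 1 - J` there is no auxiliary `y`: put `R = h + 2 lam J`, `Z_i = x_i + 2 (lam J^2 (1 - |u_i|) + c_i)/R ≥ 0`.  `PA_top` gives `v_i^2 ≤ x_i Z_i`, so
`avg_sq_le` gives `ν^2 ≤ b avg Z`, `avg Z = b + 2 (lam J^2 (1 - avg |u|) + C)/R ≤ b + 2 (lam J^2 (1 - |μ|) + C)/R` (`abs_avg_le`).
Also `b ≤ 1 - avg |u| ≤ 1 - |μ|` (`Gf_le_one_sub_abs`, `avg_mono`).  `SC_top` with `m = |μ|`, `Lm = Lam μ` (`Lam_ge_sq'`, `sq_abs`); its hypotheses `hR1`, `hR2` follow from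
`consts_top`, `J ≤ 17/25`, `lam = log 2 - h`, `log 2 < 0.6931472`.  Hence `ν^2 ≤ b (1 - μ^2)(b + 2J)`; conclude by `eS_upper` as in `star_hi`. -/
theorem star_top {ρ : ℝ} (h0 : 4 / 5 ≤ ρ) (h1 : ρ ≤ 7 / 8) : StarHyp ρ := by
  intro m u v huv hle hcut
  have hρ0 : 0 ≤ ρ := by linarith
  have hρ1 : ρ < 1 := by linarith
  have hl0 : 0 ≤ Lam ρ := Lam_nonneg hρ0 hρ1.le
  have hl1 : Lam ρ < Real.log 2 := Lam_lt_log_two' hρ0 hρ1
  have hh : 0 < Real.log 2 - Lam ρ := by linarith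
  obtain ⟨hc1, hc2, -, -⟩ := consts_top h0 h1
  have hres := alpha_le_resid hρ0 hρ1.le u v huv
  have hμν := abs_avg_add_le u v huv
  have habsμ := abs_avg_le u
  set μ := avg u with hμ
  set ν := avg v with hν
  set lam := Lam ρ with hlam
  have hμ1 : |μ| ≤ 1 := by linarith [abs_nonneg ν]
  have hμ1' := abs_le.mp hμ1
  have hLμ : 0 ≤ Lam μ := Lam_nonneg' hμ1'.1 hμ1'.2
  have hc0 : ∀ x, 0 ≤ cf (u x) (v x) := fun x => cf_nonneg (huv x)
  have hG0 : ∀ x, 0 ≤ Gf ρ (u x) (v x) := fun x => Gf_nonneg' hρ0 hρ1.le (huv x)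
  have hac : 0 ≤ avg (fun x => cf (u x) (v x)) := avg_nonneg hc0
  have haG : 0 ≤ avg (fun x => Gf ρ (u x) (v x)) := avg_nonneg hG0
  set C := avg (fun x => cf (u x) (v x)) with hC
  have hbG : avg (fun x => Gf ρ (u x) (v x))
      = (Real.log 2 - lam) * (avg (fun x => Gf ρ (u x) (v x)) / (Real.log 2 - lam)) := by
    field_simp
  have hGle : avg (fun x => Gf ρ (u x) (v x))
      ≤ (Real.log 2 - lam) * (1 - avg (fun x => |u x|)) := by
    have e1 : avg (fun x => Gf ρ (u x) (v x))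
        ≤ avg (fun x => (Real.log 2 - lam) * (1 - |u x|)) :=
      avg_mono (fun x => Gf_le_one_sub_abs hρ0 hρ1.le (huv x))
    rw [avg_const_mul, avg_sub, avg_const] at e1
    exact e1
  set b := avg (fun x => Gf ρ (u x) (v x)) / (Real.log 2 - lam) with hb
  have hb0 : 0 ≤ b := div_nonneg haG hh.le
  have hr : 0 ≤ Lam μ + C := by linarith
  set J := Jb lam (Lam μ + C) with hJ
  have hJ0 : 0 ≤ J := Jb_nonneg hl0 hl1 hr
  have hubJ : ub lam J = Lam μ + C := ub_Jb hl0 hl1 hr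
  have hJ68 : J ≤ 17 / 25 := Jc_top h0 h1 hJ0 hcut
  have hrhs : 0 ≤ lam * b * (b + 2 * J) := by positivity
  have hubJ' : (Real.log 2 - lam) * J + lam * J ^ 2 = Lam μ + C := hubJ
  rcases eq_or_lt_of_le hμ1 with hμe | hμlt
  · have hν0 : ν = 0 := by
      have : |ν| ≤ 0 := by linarith
      exact abs_eq_zero.mp (le_antisymm this (abs_nonneg _))
    rw [hν0]
    simp only [mul_zero, add_zero, sub_zero]
    linarith
  rcases le_or_gt (1 - J) b with hbJ | hbJ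
  · -- the crude bound
    rw [hbG] at hres
    have e1 : 0 ≤ (Real.log 2 - lam) * (b - (1 - J)) := mul_nonneg hh.le (by linarith)
    have e2 : 0 ≤ lam * ((b + J - 1) * (b + J + 1)) :=
      mul_nonneg hl0 (mul_nonneg (by linarith) (by linarith))
    nlinarith
  · have hsq : μ ^ 2 < 1 := (sq_lt_one_iff_abs_lt_one μ).mpr hμlt
    have hw : 0 < 1 - μ ^ 2 := by linarith
    have hup := eS_upper (ρ := ρ) (u := μ) (v := ν) hρ0 hρ1.le hμν hμlt
    have hR : 0 < Real.log 2 - lam + 2 * lam * J := by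
      have : 0 ≤ 2 * lam * J := by positivity
      linarith
    set R := Real.log 2 - lam + 2 * lam * J with hRdef
    have hu1 : ∀ x, |u x| ≤ 1 := fun x => by linarith [huv x, abs_nonneg (v x)]
    have hlJ : 0 ≤ lam * J ^ 2 := by positivity
    have hnum : ∀ x, 0 ≤ lam * J ^ 2 * (1 - |u x|) + cf (u x) (v x) := by
      intro x
      have h1 : 0 ≤ lam * J ^ 2 * (1 - |u x|) := mul_nonneg hlJ (by linarith [hu1 x])
      linarith [hc0 x]
    have hcs := avg_sq_le v (fun x => Gf ρ (u x) (v x) / (Real.log 2 - lam))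
      (fun x => Gf ρ (u x) (v x) / (Real.log 2 - lam)
        + 2 * (lam * J ^ 2 * (1 - |u x|) + cf (u x) (v x)) / R)
      (fun x => div_nonneg (hG0 x) hh.le)
      (fun x => by
        have h1 : 0 ≤ Gf ρ (u x) (v x) / (Real.log 2 - lam) := div_nonneg (hG0 x) hh.le
        have h2 : 0 ≤ 2 * (lam * J ^ 2 * (1 - |u x|) + cf (u x) (v x)) / R :=
          div_nonneg (by linarith [hnum x]) hR.le
        linarith)
      (fun x => PA_top (J := J) h0 h1 (huv x) hJ0 hJ68)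
    rw [avg_div_const] at hcs
    have hZ : avg (fun x => Gf ρ (u x) (v x) / (Real.log 2 - lam)
        + 2 * (lam * J ^ 2 * (1 - |u x|) + cf (u x) (v x)) / R)
        = b + 2 * (lam * J ^ 2 * (1 - avg (fun x => |u x|)) + C) / R := by
      rw [avg_add, avg_div_const, avg_div_const, avg_const_mul, avg_add, avg_const_mul,
        avg_sub, avg_const]
    rw [hZ] at hcs
    have hZle : b + 2 * (lam * J ^ 2 * (1 - avg (fun x => |u x|)) + C) / R
        ≤ b + 2 * (lam * J ^ 2 * (1 - |μ|) + C) / R := by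
      have e1 : lam * J ^ 2 * (1 - avg (fun x => |u x|)) ≤ lam * J ^ 2 * (1 - |μ|) :=
        mul_le_mul_of_nonneg_left (by linarith) hlJ
      have e2 : 2 * (lam * J ^ 2 * (1 - avg (fun x => |u x|)) + C) / R
          ≤ 2 * (lam * J ^ 2 * (1 - |μ|) + C) / R :=
        div_le_div_of_nonneg_right (by linarith) hR.le
      linarith
    have hb2 : b ≤ 1 - |μ| := by
      have e1 : b ≤ 1 - avg (fun x => |u x|) := by
        rw [hb, div_le_iff₀ hh]
        linarith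
      linarith
    have hLm : |μ| ^ 2 / 2 ≤ Lam μ := by
      rw [sq_abs]
      exact Lam_ge_sq' hμ1'.1 hμ1'.2
    obtain ⟨hR1, hR2⟩ := star_top_aux (L := Real.log 2) (lam := lam) (J := J)
      (by linarith [Real.log_two_lt_d9]) hc1 hc2 hl0 hJ0 hJ68
    have hSC := SC_top (h := Real.log 2 - lam) (lam := lam) (m := |μ|) (Lm := Lam μ) (J := J)
      (b := b) (C := C) hh hl0 (abs_nonneg μ) hμlt hLm hubJ' hJ0 hb0 hbJ.le hb2 hR1 hR2
    rw [sq_abs] at hSC
    have hdiv : ν ^ 2 / (1 - μ ^ 2) ≤ b * (b + 2 * J) := by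
      rw [div_le_iff₀ hw]
      have h3 : b + 2 * (lam * J ^ 2 * (1 - avg (fun x => |u x|)) + C) / R
          ≤ (1 - μ ^ 2) * (b + 2 * J) := le_trans hZle hSC
      have h4 := mul_le_mul_of_nonneg_left h3 hb0
      linarith
    calc (Lam (μ + ρ * ν) + Lam (μ - ρ * ν)) / 2 - Lam μ ≤ lam * (ν ^ 2 / (1 - μ ^ 2)) := hup
      _ ≤ lam * (b * (b + 2 * J)) := mul_le_mul_of_nonneg_left hdiv hl0
      _ = lam * b * (b + 2 * J) := by ring

theorem ck_top {ε : ℝ} (h0 : 1 / 16 ≤ ε) (h1 : ε ≤ 1 / 2) {n : ℕ} (f : Cube n → ℤˣ) :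
    infoFY ε f ≤ 1 - h2 ε := by
  rcases le_total (1 / 10) ε with h | h
  · exact ck_hi h h1 f
  · exact ck_gen2 (by linarith) h1 (star_top (by linarith) (by linarith)) f

end Vale.Agent.Lib.P322.Pot
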